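import Mathlib

namespace Vale.Agent.P034

/-- The base of the scales. -/
def bb (i : ℕ) : ℕ := 2 ^ (8 * i)

/-- The exponent multiplier. -/
def DD (a : ℕ) : ℕ := 8 * (a + 1)

/-- The scale exponents. -/
def ee (a j : ℕ) : ℕ := 8 * DD a ^ j

/-- The count bound for heavy sets at exponent `E`. -/
def YY (a i E : ℕ) : ℕ := 2 ^ (2 * a + 8) * bb i ^ (E + 1)

variable {a i : ℕ}

lemma ee_ge (a j : ℕ) : 8 ≤ ee a j := Nat.le_mul_of_pos_right 8 (pow_pos (by simp [DD]) j)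

lemma ee_succ (a j : ℕ) : ee a (j + 1) = DD a * ee a j := by
  simp only [ee, pow_succ]; ring

lemma ee_mono (a j : ℕ) : ee a j ≤ ee a (j + 1) := by
  rw [ee_succ]; exact Nat.le_mul_of_pos_left _ (by simp [DD])

lemma ee_lin (a j : ℕ) : j + 8 ≤ ee a j := by
  induction j with
  | zero => simpa using ee_ge a 0
  | succ j ih =>
    rw [ee_succ]
    have : 8 * ee a j ≤ DD a * ee a j := Nat.mul_le_mul_right _ (by simp [DD])
    omega

lemma bb_ge (hi : 50 ≤ i) : 2 ^ 16 ≤ bb i := Nat.pow_le_pow_right (by norm_num) (by omega)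

lemma lin_le_bb (hi : 50 ≤ i) : 8 * i ≤ bb i := (Nat.lt_two_pow_self).le

lemma nat_le_bb_pow (hi : 50 ≤ i) (n : ℕ) : 4 * n ≤ bb i ^ n := by
  induction n with
  | zero => simp
  | succ n ih =>
    have h := bb_ge hi
    rw [pow_succ]
    rcases Nat.eq_zero_or_pos n with rfl | hn
    · simp; omega
    · have : 8 * bb i ^ n ≤ bb i ^ n * bb i := by
        rw [mul_comm]; exact Nat.mul_le_mul_left _ (by omega)
      have : 1 ≤ bb i ^ n := Nat.one_le_pow _ _ (by omega)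
      omega

lemma YY_le (hi : 50 ≤ i) (hai : 99 * a ≤ i) (E : ℕ) : YY a i E + 1 ≤ bb i ^ (E + 3) := by
  have h1 : YY a i E ≤ bb i ^ (E + 2) := by
    rw [YY, pow_succ (bb i) (E + 1), mul_comm (2 ^ _)]
    exact Nat.mul_le_mul_left _ (Nat.pow_le_pow_right (by norm_num) (by omega))
  have h2 : 2 * bb i ^ (E + 2) ≤ bb i ^ (E + 3) := by
    rw [pow_succ (bb i) (E + 2), mul_comm 2]
    exact Nat.mul_le_mul_left _ (le_trans (by norm_num) (bb_ge hi))
  have : 1 ≤ bb i ^ (E + 2) := Nat.one_le_pow _ _ (by have := bb_ge hi; omega)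
  omega

lemma YY_pow_le (hi : 50 ≤ i) (hai : 99 * a ≤ i) {E : ℕ} (hE : 8 ≤ E) {m : ℕ}
    (hm : m ≤ YY a i E) : (YY a i E + 1) ^ m ≤ 2 ^ (bb i ^ (3 * E)) := by
  have hb : 0 < bb i := by have := bb_ge hi; omega
  calc (YY a i E + 1) ^ m ≤ (bb i ^ (E + 3)) ^ m :=
        Nat.pow_le_pow_left (YY_le hi hai E) _
    _ = 2 ^ (8 * i * (E + 3) * m) := by
        show ((2 ^ (8 * i)) ^ (E + 3)) ^ m = _
        rw [← pow_mul, ← pow_mul, mul_assoc (8 * i)]
    _ ≤ _ := by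
        refine Nat.pow_le_pow_right (by norm_num) ?_
        calc 8 * i * (E + 3) * m ≤ bb i ^ 1 * bb i ^ E * bb i ^ (E + 3) := by
              refine Nat.mul_le_mul (Nat.mul_le_mul (by simpa using lin_le_bb hi) ?_) ?_
              · have := nat_le_bb_pow hi E; omega
              · exact le_trans hm ((Nat.le_succ _).trans (YY_le hi hai E))
          _ ≤ _ := by
              rw [← pow_add, ← pow_add]
              exact Nat.pow_le_pow_right hb (by omega)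

lemma radius_le (hi : 50 ≤ i) (hai : 99 * a ≤ i) {e : ℕ} (he : 8 ≤ e) :
    a * YY a i e + a * bb i ^ (6 * e) + 1 ≤ bb i ^ (8 * e) := by
  have hb : 2 ^ 16 ≤ bb i := bb_ge hi
  have hY : YY a i e ≤ bb i ^ (6 * e) :=
    ((Nat.le_succ _).trans (YY_le hi hai e)).trans (Nat.pow_le_pow_right (by omega) (by omega))
  have ha' : a ≤ bb i := le_trans (by omega) (lin_le_bb hi)
  have h1 : 1 ≤ bb i * bb i ^ (6 * e) := Nat.mul_pos (by omega) (Nat.pow_pos (by omega))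
  have h2 : 3 * (bb i * bb i ^ (6 * e)) ≤ bb i ^ (8 * e) := by
    calc 3 * (bb i * bb i ^ (6 * e)) ≤ bb i ^ 1 * (bb i ^ 1 * bb i ^ (6 * e)) := by
          rw [pow_one]; exact Nat.mul_le_mul_right _ (by omega)
      _ ≤ _ := by
          rw [← pow_add, ← pow_add]
          exact Nat.pow_le_pow_right (by omega) (by omega)
  have h3 := Nat.mul_le_mul ha' hY
  have h4 : a * bb i ^ (6 * e) ≤ bb i * bb i ^ (6 * e) := Nat.mul_le_mul_right _ ha'
  omega

lemma seed_exp_le (hi : 50 ≤ i) {e j : ℕ} (he : 8 ≤ e) (hj : j ≤ bb i ^ e) :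
    bb i ^ (4 * e) + (bb i ^ (3 * e) + (2 * i + j)) ≤ bb i ^ (5 * e) := by
  have hb := bb_ge hi
  have h1 : bb i ^ (3 * e) ≤ bb i ^ (4 * e) := Nat.pow_le_pow_right (by omega) (by omega)
  have h2 : bb i ^ e ≤ bb i ^ (4 * e) := Nat.pow_le_pow_right (by omega) (by omega)
  have h3 : 2 * i ≤ bb i ^ (4 * e) :=
    le_trans (le_trans (by omega) (lin_le_bb hi)) (Nat.le_self_pow (by omega) _)
  have h4 : 4 * bb i ^ (4 * e) ≤ bb i ^ (5 * e) := by
    calc 4 * bb i ^ (4 * e) ≤ bb i ^ e * bb i ^ (4 * e) :=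
          Nat.mul_le_mul_right _ (le_trans (by omega) (nat_le_bb_pow hi e))
      _ = _ := by rw [← pow_add]; congr 1; ring
  omega

lemma tail_exp_le (hi : 50 ≤ i) (hai : 99 * a ≤ i) (ha : 1 ≤ a) {e j : ℕ} (he : 8 ≤ e)
    (hj : j ≤ bb i ^ e) :
    bb i ^ (3 * (DD a ^ 3 * e)) + (i + j) ≤ 2 ^ (bb i ^ (4 * e)) := by
  have hb := bb_ge hi
  set E := DD a ^ 3 * e
  have hDe : e ≤ E := Nat.le_mul_of_pos_left _ (pow_pos (by simp [DD]) 3)
  have h1 : bb i ^ (3 * E) + (i + j) ≤ 3 * bb i ^ (3 * E) := by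
    have : bb i ^ e ≤ bb i ^ (3 * E) := Nat.pow_le_pow_right (by omega) (by omega)
    have h2 : bb i ≤ bb i ^ (3 * E) := Nat.le_self_pow (by omega) _
    have := lin_le_bb hi
    omega
  have h2 : 3 * bb i ^ (3 * E) ≤ bb i ^ (4 * E) := by
    calc 3 * bb i ^ (3 * E) ≤ bb i ^ E * bb i ^ (3 * E) :=
          Nat.mul_le_mul_right _ (le_trans (by omega) (nat_le_bb_pow hi E))
      _ = _ := by rw [← pow_add]; congr 1; ring
  have h3 : bb i ^ (4 * E) ≤ 2 ^ (bb i ^ (4 * e)) := by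
    rw [bb, ← pow_mul]
    refine Nat.pow_le_pow_right (by norm_num) ?_
    show 8 * i * (4 * E) ≤ bb i ^ (4 * e)
    have hD : DD a ≤ bb i := by
      have := lin_le_bb hi; simp [DD]; omega
    calc 8 * i * (4 * E) ≤ bb i * (bb i * (bb i ^ 3 * bb i ^ e)) := by
          refine Nat.mul_le_mul (lin_le_bb hi) (Nat.mul_le_mul (by omega) ?_)
          exact Nat.mul_le_mul (Nat.pow_le_pow_left hD 3)
            (le_trans (by omega) (nat_le_bb_pow hi e))
      _ = bb i ^ (e + 5) := by ring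
      _ ≤ _ := Nat.pow_le_pow_right (by omega) (by omega)
  omega

lemma poly_le_exp : ∀ i, 50 ≤ i → 600000 * i ^ 6 ≤ 4 ^ i := by
  intro i hi
  induction i, hi using Nat.le_induction with
  | base => norm_num
  | succ n hn ih =>
    have h : (50 * (n + 1)) ^ 6 ≤ (51 * n) ^ 6 := Nat.pow_le_pow_left (by omega) 6
    rw [mul_pow, mul_pow] at h
    rw [pow_succ 4 n]
    have : (n + 1) ^ 6 ≤ 4 * n ^ 6 := by omega
    omega

lemma caseA_exp_le (hi : 50 ≤ i) (hai : 99 * a ≤ i) (ha : 1 ≤ a) :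
    8 * i * (ee a 2 + 3) * (a * (256 * DD a ^ 2)) + i ≤ 2 ^ (2 * i) := by
  have hD : DD a ≤ i := by simp [DD]; omega
  have hD2 : DD a ^ 2 ≤ i ^ 2 := Nat.pow_le_pow_left hD 2
  have he : ee a 2 + 3 ≤ 11 * i ^ 2 := by
    simp only [ee]
    have : 1 ≤ i ^ 2 := Nat.one_le_pow _ _ (by omega)
    omega
  calc 8 * i * (ee a 2 + 3) * (a * (256 * DD a ^ 2)) + i
      ≤ 8 * i * (11 * i ^ 2) * (i * (256 * i ^ 2)) + i ^ 6 := by
        refine Nat.add_le_add (Nat.mul_le_mul (Nat.mul_le_mul_left _ he)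
          (Nat.mul_le_mul (by omega) (Nat.mul_le_mul_left _ hD2))) (Nat.le_self_pow (by omega) _)
    _ ≤ 600000 * i ^ 6 := by ring_nf; omega
    _ ≤ _ := by rw [pow_mul]; exact poly_le_exp i hi

lemma case0_exp_le (hi : 50 ≤ i) :
    bb i ^ (3 * ee a 2) + i ≤ 2 ^ (2 * i * (256 * DD a ^ 2)) := by
  have hb := bb_ge hi
  have he := ee_ge a 2
  have h1 : i ≤ bb i ^ (3 * ee a 2) :=
    le_trans (le_trans (by omega) (lin_le_bb hi)) (Nat.le_self_pow (by omega) _)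
  have h2 : 2 * bb i ^ (3 * ee a 2) ≤ bb i ^ (4 * ee a 2) := by
    calc 2 * bb i ^ (3 * ee a 2) ≤ bb i ^ ee a 2 * bb i ^ (3 * ee a 2) :=
          Nat.mul_le_mul_right _ (le_trans (by omega) (nat_le_bb_pow hi _))
      _ = _ := by rw [← pow_add, show ee a 2 + 3 * ee a 2 = 4 * ee a 2 by ring]
  have h3 : bb i ^ (4 * ee a 2) ≤ 2 ^ (2 * i * (256 * DD a ^ 2)) := by
    rw [bb, ← pow_mul]
    refine Nat.pow_le_pow_right (by norm_num) ?_
    simp only [ee]
    nlinarith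
  omega

lemma case0_mass_exp_le (hi : 50 ≤ i) :
    2 * i * (256 * DD a ^ 2) + (256 * DD a ^ 2 + 2 * i) ≤ 4 * i * (256 * DD a ^ 2) := by
  have hr : 256 ≤ 256 * DD a ^ 2 := Nat.le_mul_of_pos_right _ (pow_pos (by simp [DD]) 2)
  generalize 256 * DD a ^ 2 = r at hr
  nlinarith

lemma link_small_exp (a e : ℕ) : 8 * e + 8 * e * a = DD a * e := by
  simp [DD]; ring

end Vale.Agent.P034
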