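import Mathlib

namespace Vale.Agent.P034

open Finset Real

variable {X : Type} [Fintype X] [DecidableEq X]

omit [Fintype X] in
/-- Derandomised rounding of a weight function against a family of containers. -/
lemma rounding_aux (q : ℝ) (hq : 0 ≤ q) (w : Finset X → ℝ) (hw : ∀ U, 0 ≤ w U)
    (s : Finset (Finset X)) :
    ∀ 𝒞 : Finset (Finset X), ∃ G : Finset (Finset X), (∀ C ∈ 𝒞, ∃ S ∈ G, S ⊆ C) ∧
      ∑ S ∈ G, q ^ S.card ≤ ∑ U ∈ s, w U * q ^ U.card +
        ∑ C ∈ 𝒞, q ^ C.card * exp (-∑ U ∈ s.filter (· ⊆ C), w U) := by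
  induction s using Finset.induction_on with
  | empty =>
    intro 𝒞
    refine ⟨𝒞, fun C hC => ⟨C, hC, subset_rfl⟩, ?_⟩
    simp
  | @insert U s hU ih =>
    intro 𝒞
    obtain ⟨G1, hG1, hc1⟩ := ih (𝒞.filter fun C => ¬ U ⊆ C)
    obtain ⟨G2, hG2, hc2⟩ := ih 𝒞
    set e : Finset X → ℝ := fun C => q ^ C.card * exp (-∑ V ∈ s.filter (· ⊆ C), w V) with he
    have he0 : ∀ C, 0 ≤ e C := fun C => by positivity
    have hsplit : ∑ C ∈ 𝒞, q ^ C.card * exp (-∑ V ∈ (insert U s).filter (· ⊆ C), w V)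
        = ∑ C ∈ 𝒞.filter (fun C => ¬ U ⊆ C), e C
          + exp (-w U) * ∑ C ∈ 𝒞.filter (fun C => U ⊆ C), e C := by
      rw [← sum_filter_add_sum_filter_not 𝒞 (fun C => U ⊆ C), add_comm, mul_sum]
      congr 1
      · refine sum_congr rfl fun C hC => ?_
        simp only [mem_filter] at hC
        rw [filter_insert, if_neg hC.2]
      · refine sum_congr rfl fun C hC => ?_
        simp only [mem_filter] at hC
        rw [filter_insert, if_pos hC.2, sum_insert (by simp [hU]), neg_add, exp_add]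
        simp only [he]; ring
    have hsum : ∑ C ∈ 𝒞, e C = ∑ C ∈ 𝒞.filter (fun C => ¬ U ⊆ C), e C
        + ∑ C ∈ 𝒞.filter (fun C => U ⊆ C), e C := by
      rw [← sum_filter_add_sum_filter_not 𝒞 (fun C => U ⊆ C), add_comm]
    rw [sum_insert hU, hsplit]
    set A := ∑ C ∈ 𝒞.filter (fun C => ¬ U ⊆ C), e C
    set B := ∑ C ∈ 𝒞.filter (fun C => U ⊆ C), e C
    set W := ∑ V ∈ s, w V * q ^ V.card
    by_cases h : q ^ U.card ≤ B
    · refine ⟨insert U G1, ?_, ?_⟩
      · intro C hC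
        by_cases hUC : U ⊆ C
        · exact ⟨U, mem_insert_self _ _, hUC⟩
        · obtain ⟨S, hS, hSC⟩ := hG1 C (mem_filter.mpr ⟨hC, hUC⟩)
          exact ⟨S, mem_insert_of_mem hS, hSC⟩
      · have h1 : ∑ S ∈ insert U G1, q ^ S.card ≤ q ^ U.card + ∑ S ∈ G1, q ^ S.card := by
          by_cases hmem : U ∈ G1
          · rw [insert_eq_of_mem hmem]; linarith [pow_nonneg hq U.card]
          · rw [sum_insert hmem]
        have h2 : ∑ S ∈ G1, q ^ S.card ≤ W + A := hc1
        have hpi : 1 - exp (-w U) ≤ w U := by linarith [add_one_le_exp (-w U)]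
        have hexp : 0 ≤ exp (-w U) := (exp_pos _).le
        have := mul_le_mul_of_nonneg_right hpi (pow_nonneg hq U.card)
        nlinarith [mul_le_mul_of_nonneg_left h hexp]
    · refine ⟨G2, hG2, ?_⟩
      have h2 : ∑ S ∈ G2, q ^ S.card ≤ W + (A + B) := by rw [← hsum]; exact hc2
      have hpi : 1 - exp (-w U) ≤ w U := by linarith [add_one_le_exp (-w U)]
      have hle : exp (-w U) ≤ 1 := exp_le_one_iff.mpr (by linarith [hw U])
      have hB : B ≤ q ^ U.card := le_of_not_ge h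
      have := mul_le_mul_of_nonneg_right hpi (pow_nonneg hq U.card)
      nlinarith [mul_le_mul_of_nonneg_left hB (by linarith : (0:ℝ) ≤ 1 - exp (-w U))]

/-- A weight function can be rounded to a cover of the containers. -/
lemma rounding (q : ℝ) (hq : 0 ≤ q) (w : Finset X → ℝ) (hw : ∀ U, 0 ≤ w U)
    (𝒞 : Finset (Finset X)) :
    ∃ G : Finset (Finset X), (∀ C ∈ 𝒞, ∃ S ∈ G, S ⊆ C) ∧
      ∑ S ∈ G, q ^ S.card ≤ ∑ U : Finset X, w U * q ^ U.card +
        ∑ C ∈ 𝒞, q ^ C.card * exp (-∑ U ∈ C.powerset, w U) := by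
  obtain ⟨G, h1, h2⟩ := rounding_aux q hq w hw univ 𝒞
  refine ⟨G, h1, h2.trans (le_of_eq ?_)⟩
  congr 1
  refine sum_congr rfl fun C _ => ?_
  congr 3
  refine sum_congr ?_ fun _ _ => rfl
  ext U; simp

end Vale.Agent.P034
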