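import Vale.Agent.P034.Kernel
import Vale.Agent.P034.Numeric
import Vale.Agent.P034.Rounding

namespace Vale.Agent.P034

open Finset Real

variable {X : Type} [Fintype X] [DecidableEq X]

/-- The scales. -/
noncomputable def scl (a i j : ℕ) : ℝ := 1 / (bb i : ℝ) ^ ee a j

/-- The load cap. -/
noncomputable def capB (a i : ℕ) : ℝ := 2 ^ (a + 8) * (bb i : ℝ)

lemma bb_real_pos (i : ℕ) : (0:ℝ) < (bb i : ℝ) := by simp [bb]

lemma bb_real_one (i : ℕ) : (1:ℝ) ≤ (bb i : ℝ) := by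
  have : 1 ≤ bb i := Nat.one_le_two_pow
  exact_mod_cast this

lemma scl_pos (a i j : ℕ) : 0 < scl a i j := div_pos one_pos (pow_pos (bb_real_pos i) _)

lemma scl_anti (a i j : ℕ) : scl a i (j + 1) ≤ scl a i j :=
  one_div_le_one_div_of_le (pow_pos (bb_real_pos i) _)
    (pow_le_pow_right₀ (bb_real_one i) (ee_mono a j))

lemma cap_eq (a i j : ℕ) : 2 ^ a * capB a i = (YY a i (ee a j) : ℝ) * scl a i j := by
  have hb := bb_real_pos i
  simp only [capB, scl, YY]
  push_cast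
  field_simp
  ring

lemma exp_neg_nat_le (M : ℕ) : exp (-(M:ℝ)) ≤ (1/2) ^ M := by
  have h1 : exp (-1) ≤ 1 / 2 := by
    rw [exp_neg, inv_eq_one_div]
    exact one_div_le_one_div_of_le two_pos (by linarith [add_one_le_exp (1:ℝ)])
  have : exp (-(M:ℝ)) = exp (-1) ^ M := by rw [← exp_nat_mul]; ring_nf
  rw [this]
  exact pow_le_pow_left₀ (exp_pos _).le h1 M

lemma tail_bound {q : ℝ} (hq : 0 ≤ q) (T : Finset (Finset X)) (f : Finset X → ℝ) {x c M : ℕ}
    (hT : ∑ C ∈ T, q ^ C.card ≤ 2 ^ x) (hM : x + c ≤ M) :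
    ∑ C ∈ T.filter (fun C => (M:ℝ) ≤ f C), q ^ C.card * exp (-f C) ≤ (1/2) ^ c := by
  calc _ ≤ ∑ C ∈ T.filter (fun C => (M:ℝ) ≤ f C), q ^ C.card * (1/2) ^ (x + c) := by
        refine sum_le_sum fun C hC => mul_le_mul_of_nonneg_left ?_ (pow_nonneg hq _)
        have h1 := (mem_filter.mp hC).2
        exact ((exp_le_exp.mpr (neg_le_neg h1)).trans (exp_neg_nat_le M)).trans
          (pow_le_pow_of_le_one (by norm_num) (by norm_num) hM)
    _ ≤ (∑ C ∈ T, q ^ C.card) * (1/2) ^ (x + c) := by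
        rw [← sum_mul]
        exact mul_le_mul_of_nonneg_right (sum_le_sum_of_subset_of_nonneg (filter_subset _ _)
          (fun C _ _ => pow_nonneg hq _)) (by positivity)
    _ ≤ 2 ^ x * (1/2) ^ (x + c) := mul_le_mul_of_nonneg_right hT (by positivity)
    _ = _ := by
        rw [pow_add, ← mul_assoc, ← mul_pow]; norm_num

omit [Fintype X] in
lemma sum_biUnion_le_sum {ι : Type} [DecidableEq ι] (s : Finset ι)
    (t : ι → Finset (Finset X)) (f : Finset X → ℝ) (hf : ∀ C, 0 ≤ f C) :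
    ∑ C ∈ s.biUnion t, f C ≤ ∑ j ∈ s, ∑ C ∈ t j, f C := by
  induction s using Finset.induction_on with
  | empty => simp
  | @insert j s hj ih =>
    rw [biUnion_insert, sum_insert hj]
    have := sum_union_inter (s₁ := t j) (s₂ := s.biUnion t) (f := f)
    linarith [sum_nonneg (s := t j ∩ s.biUnion t) (f := f) (fun C _ => hf C)]

lemma half_pow_two_mul (n m : ℕ) (h : m ≤ n) : (2:ℝ) ^ (n - m) = (1/2) ^ m * 2 ^ n := by
  conv_rhs => rw [← Nat.sub_add_cancel h, pow_add]
  rw [mul_left_comm, ← mul_pow]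
  norm_num

namespace Inst

variable (I : Inst X)

lemma hull_mem_thin (i j : ℕ) {H : Finset X} (hcap : I.Phi H ≤ capB I.a i) :
    I.hull (scl I.a i j) H ∈ I.thin (scl I.a i j) (capB I.a i) (YY I.a i (ee I.a j)) ∧
      (I.hull (scl I.a i j) H).card ≤ I.a * YY I.a i (ee I.a j) := by
  set s := H.powerset.filter fun B => scl I.a i j ≤ I.link B
  have hs : (s.card : ℝ) ≤ (YY I.a i (ee I.a j) : ℝ) := by
    refine I.card_heavy_below (scl_pos _ _ _) ?_
    rw [← cap_eq]
    exact mul_le_mul_of_nonneg_left hcap (by positivity)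
  have hs' : s.card ≤ YY I.a i (ee I.a j) := by exact_mod_cast hs
  refine ⟨I.thin_mem _ s hs' (fun B hB => (mem_filter.mp hB).2)
    ((I.Phi_mono (I.hull_subset _ _)).trans hcap), ?_⟩
  show (s.sup id).card ≤ _
  rw [sup_eq_biUnion, mul_comm]
  exact (card_biUnion_le_card_mul _ _ _ fun B hB =>
    I.heavy_card (scl_pos _ _ _) (mem_filter.mp hB).2).trans (Nat.mul_le_mul_right _ hs')

/-- Number of kernel steps at stage zero. -/
def rz : ℕ := 256 * DD I.a ^ 2

/-- Weight for sets of high load. -/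
noncomputable def wA (i : ℕ) (U : Finset X) : ℝ := (1/2) ^ (2 * i) * I.link U

/-- Weight from stage zero. -/
noncomputable def wZ (i : ℕ) (U : Finset X) : ℝ :=
  (1/2) ^ (2 * i) * I.W (scl I.a i) 0 I.rz ∅ U

/-- Seeds of stage `j`. -/
noncomputable def seeds (i j : ℕ) : Finset (Finset X) :=
  I.thin (scl I.a i (j - 1)) (capB I.a i) (if j = 1 then 0 else YY I.a i (ee I.a (j - 1)))

/-- Weight from stage `j`. -/
noncomputable def wS (i j : ℕ) (U : Finset X) : ℝ :=
  (1/2) ^ (bb i ^ (3 * ee I.a (j - 1)) + (2 * i + j)) *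
    ∑ A ∈ I.seeds i j, I.W (scl I.a i) j (bb i ^ (6 * ee I.a (j - 1))) A U

/-- The total weight. -/
noncomputable def wT (i N : ℕ) (U : Finset X) : ℝ :=
  I.wA i U + I.wZ i U + ∑ j ∈ Finset.Ico 1 N, I.wS i j U

/-- The weight inside a set. -/
noncomputable def mass (i N : ℕ) (C : Finset X) : ℝ := ∑ U ∈ C.powerset, I.wT i N U

lemma wA_nonneg (i : ℕ) (U : Finset X) : 0 ≤ I.wA i U :=
  mul_nonneg (by positivity) (I.link_nonneg U)

lemma wZ_nonneg (i : ℕ) (U : Finset X) : 0 ≤ I.wZ i U :=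
  mul_nonneg (by positivity) (I.W_nonneg _ _ _ _ _)

lemma wS_nonneg (i j : ℕ) (U : Finset X) : 0 ≤ I.wS i j U :=
  mul_nonneg (by positivity) (sum_nonneg fun A _ => I.W_nonneg _ _ _ _ _)

lemma wT_nonneg (i N : ℕ) (U : Finset X) : 0 ≤ I.wT i N U :=
  add_nonneg (add_nonneg (I.wA_nonneg i U) (I.wZ_nonneg i U))
    (sum_nonneg fun j _ => I.wS_nonneg i j U)

lemma wA_le (i N : ℕ) (U : Finset X) : I.wA i U ≤ I.wT i N U := by
  unfold wT
  linarith [I.wZ_nonneg i U, sum_nonneg (s := Finset.Ico 1 N) fun j _ => I.wS_nonneg i j U]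

lemma wZ_le (i N : ℕ) (U : Finset X) : I.wZ i U ≤ I.wT i N U := by
  unfold wT
  linarith [I.wA_nonneg i U, sum_nonneg (s := Finset.Ico 1 N) fun j _ => I.wS_nonneg i j U]

lemma wS_le (i N j : ℕ) (hj : j ∈ Finset.Ico 1 N) (U : Finset X) :
    I.wS i j U ≤ I.wT i N U := by
  unfold wT
  linarith [I.wA_nonneg i U, I.wZ_nonneg i U,
    single_le_sum (f := fun j => I.wS i j U) (fun j _ => I.wS_nonneg i j U) hj]

variable {i : ℕ} (hi : 50 ≤ i) (hai : 99 * I.a ≤ i)
include hi hai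

lemma seeds_cost (j : ℕ) :
    ∑ A ∈ I.seeds i j, (I.p / 2) ^ A.card ≤ (2:ℝ) ^ (bb i ^ (3 * ee I.a (j - 1))) := by
  refine (I.thin_sum (scl_pos _ _ _) (cap_eq I.a i (j - 1)).le (Nat.cast_nonneg _) _).trans ?_
  have h := YY_pow_le hi hai (ee_ge I.a (j - 1))
    (m := if j = 1 then 0 else YY I.a i (ee I.a (j - 1))) (by split_ifs <;> simp)
  exact_mod_cast h

lemma wT_cost (N : ℕ) :
    ∑ U : Finset X, I.wT i N U * (I.p / 2) ^ U.card ≤ 3 * (1/2) ^ i := by
  have hA : ∑ U : Finset X, I.wA i U * (I.p / 2) ^ U.card ≤ (1/2) ^ i := by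
    simp only [wA, mul_assoc, ← mul_sum]
    refine (mul_le_mul_of_nonneg_left I.sum_link_cost_le (by positivity)).trans ?_
    calc (1/2:ℝ) ^ (2 * i) * 2 ^ I.a ≤ (1/2) ^ (2 * i) * 2 ^ i :=
          mul_le_mul_of_nonneg_left (pow_le_pow_right₀ one_le_two (by omega)) (by positivity)
      _ = _ := by rw [pow_mul, ← mul_pow]; norm_num
  have hpow : ((1:ℝ)/2) ^ (2 * i) ≤ (1/2) ^ i :=
    pow_le_pow_of_le_one (by norm_num) (by norm_num) (by omega)
  have hZ : ∑ U : Finset X, I.wZ i U * (I.p / 2) ^ U.card ≤ (1/2) ^ i := by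
    simp only [wZ, mul_assoc, ← mul_sum]
    refine (mul_le_mul_of_nonneg_left (I.W_cost (scl I.a i) 0 I.rz ∅) (by positivity)).trans ?_
    simpa using hpow
  have hS : ∀ j, ∑ U : Finset X, I.wS i j U * (I.p / 2) ^ U.card
      ≤ (1/2) ^ (2 * i) * (1/2) ^ j := by
    intro j
    simp only [wS, mul_assoc, ← mul_sum, sum_mul]
    rw [sum_comm]
    refine (mul_le_mul_of_nonneg_left ((sum_le_sum fun A _ => I.W_cost (scl I.a i) j _ A).trans
      (I.seeds_cost hi hai j)) (by positivity)).trans ?_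
    rw [pow_add (1/2 : ℝ), mul_right_comm, ← mul_pow, pow_add (1/2 : ℝ)]
    norm_num
  simp only [wT, add_mul, sum_add_distrib, sum_mul]
  rw [sum_comm]
  have hsum : ∑ j ∈ Finset.Ico 1 N, ∑ U : Finset X, I.wS i j U * (I.p / 2) ^ U.card
      ≤ (1/2) ^ i := by
    refine (sum_le_sum fun j _ => hS j).trans ?_
    rw [← mul_sum]
    have h2 : ∑ j ∈ Finset.Ico 1 N, ((1:ℝ)/2) ^ j ≤ 2 :=
      (sum_le_sum_of_subset_of_nonneg (fun j hj => mem_range.mpr (mem_Ico.mp hj).2)
        (fun j _ _ => by positivity)).trans (sum_geometric_two_le N)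
    refine (mul_le_mul_of_nonneg_left h2 (by positivity)).trans ?_
    calc ((1:ℝ)/2) ^ (2 * i) * 2 ≤ (1/2) ^ (i + 1) * 2 :=
          mul_le_mul_of_nonneg_right
            (pow_le_pow_of_le_one (by norm_num) (by norm_num) (by omega)) two_pos.le
      _ = _ := by rw [pow_succ]; ring
  linarith

lemma exists_container {N : ℕ} (hN : 1 < N) (hsmall : ∀ S, I.v S = 0 ∨ scl I.a i N ≤ I.v S)
    {H : Finset X} (hb : (bb i : ℝ) ≤ I.below H) (hcap : I.Phi H ≤ capB I.a i) :
    (∃ C ∈ I.thin (scl I.a i 2) (capB I.a i) (I.a * I.rz),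
        C ⊆ H ∧ ((2 ^ (2 * i) : ℕ) : ℝ) ≤ I.mass i N C) ∨
    (∃ C ∈ I.thin (scl I.a i 2) (capB I.a i) (YY I.a i (ee I.a 2)),
        C ⊆ H ∧ ((2 ^ (2 * i * I.rz) : ℕ) : ℝ) ≤ I.mass i N C) ∨
    (∃ j ∈ Finset.Ico 1 N,
      ∃ C ∈ I.thin (scl I.a i (j + 2)) (capB I.a i) (YY I.a i (ee I.a (j + 2))),
        C ⊆ H ∧ ((2 ^ (bb i ^ (4 * ee I.a (j - 1))) : ℕ) : ℝ) ≤ I.mass i N C) := by
  set al := scl I.a i
  have hal : ∀ j, al (j + 1) ≤ al j := scl_anti I.a i
  have hpos : ∀ j, 0 < al j := scl_pos I.a i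
  set b : ℝ := (bb i : ℝ) with hbdef
  have hb0 : 0 < b := bb_real_pos i
  have hb1 : 1 ≤ b := bb_real_one i
  have hlev : ∀ j, j ≠ 0 → I.lev al j H = I.hull (al j) H := fun j hj => by simp [lev, hj]
  by_cases hA : ∃ A, A ⊆ I.lev al 2 H ∧ A.card ≤ I.a * I.rz ∧ (2:ℝ) ^ (4 * i) < I.Phi A
  · obtain ⟨A, hA2, hAc, hAΦ⟩ := hA
    left
    rw [hlev 2 two_ne_zero] at hA2
    have hch : ∀ x : X, ∃ B : Finset X, x ∈ A → B ⊆ H ∧ al 2 ≤ I.link B ∧ x ∈ B := by
      intro x
      by_cases hx : x ∈ A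
      · obtain ⟨B, h⟩ := I.mem_hull.mp (hA2 hx)
        exact ⟨B, fun _ => h⟩
      · exact ⟨∅, fun h => absurd h hx⟩
    choose f hf using hch
    have hCH : (A.image f).sup id ⊆ H := by
      refine Finset.sup_le ?_
      intro B hB
      obtain ⟨x, hx, rfl⟩ := mem_image.mp hB
      exact (hf x hx).1
    have hAC : A ⊆ (A.image f).sup id := fun x hx =>
      mem_sup.mpr ⟨f x, mem_image_of_mem f hx, (hf x hx).2.2⟩
    refine ⟨_, I.thin_mem _ (A.image f) (card_image_le.trans hAc) ?_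
      ((I.Phi_mono hCH).trans hcap), hCH, ?_⟩
    · intro B hB
      obtain ⟨x, hx, rfl⟩ := mem_image.mp hB
      exact (hf x hx).2.1
    set C := (A.image f).sup id
    have h1 : (2:ℝ) ^ (4 * i) ≤ ∑ U ∈ C.powerset, I.link U :=
      hAΦ.le.trans ((I.Phi_mono hAC).trans (I.Phi_le_sum_link C))
    calc ((2 ^ (2 * i) : ℕ) : ℝ) = (1/2:ℝ) ^ (2 * i) * 2 ^ (4 * i) := by
          rw [← half_pow_two_mul _ _ (by omega), show 4 * i - 2 * i = 2 * i by omega]
          norm_num
      _ ≤ ∑ U ∈ C.powerset, I.wA i U := by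
          simp only [wA, ← mul_sum]
          exact mul_le_mul_of_nonneg_left h1 (by positivity)
      _ ≤ _ := sum_le_sum fun U _ => I.wA_le i N U
  push Not at hA
  right
  by_cases h0 : b / 2 ≤ I.Fv al 1 H
  · left
    have hm := I.hull_mem_thin i 2 hcap
    rw [← hlev 2 two_ne_zero] at hm
    refine ⟨_, hm.1, I.lev_subset al 2 H, ?_⟩
    set C := I.lev al 2 H
    have hr := I.W_reach al hal (j := 0) (H := H) (R := I.a * I.rz) (ZM := 2 ^ (4 * i))
      (γ := 2 ^ (4 * i) / 2) (by positivity) (by positivity) ?_ ?_ I.rz ∅ (empty_subset _)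
      (by simp [lev]) (by simp [mul_comm])
    · calc ((2 ^ (2 * i * I.rz) : ℕ) : ℝ) ≤ (1/2) ^ (2 * i) * ((2:ℝ) ^ (4 * i) / 2) ^ I.rz := by
            have he : (1/2:ℝ) ^ (2 * i) * ((2:ℝ) ^ (4 * i) / 2) ^ I.rz
                = (1/2) ^ (2 * i + I.rz) * 2 ^ (4 * i * I.rz) := by
              rw [div_eq_mul_one_div ((2:ℝ) ^ (4 * i)) 2, mul_pow, pow_add, pow_mul 2 (4 * i)]
              ring
            rw [he, ← half_pow_two_mul _ _ ?_]
            · push_cast
              refine pow_le_pow_right₀ one_le_two ?_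
              have := case0_mass_exp_le (a := I.a) hi
              simp only [rz]
              omega
            · have := case0_mass_exp_le (a := I.a) hi
              simp only [rz]
              omega
        _ ≤ (1/2) ^ (2 * i) * ∑ U ∈ C.powerset, I.W al 0 I.rz ∅ U :=
            mul_le_mul_of_nonneg_left hr (by positivity)
        _ = ∑ U ∈ C.powerset, I.wZ i U := by simp only [wZ, mul_sum]; rfl
        _ ≤ _ := sum_le_sum fun U _ => I.wZ_le i N U
    · refine le_trans (le_of_eq ?_) h0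
      rw [hbdef, bb]
      push_cast
      rw [show 8 * i = 4 * i + 4 * i by ring, pow_add]
      ring
    · intro A hA1 _ hA3
      exact (I.Z_zero_le al hal A).trans (hA A hA1 hA3)
  push Not at h0
  right
  by_contra hno
  have hstep : ∀ j ∈ Finset.Ico 1 N, I.Fv al (j + 1) H <
      (1 + 1 / b ^ ee I.a (j - 1)) * (I.Fv al j H + 1 / b ^ ee I.a (j - 1) * b) := by
    intro j hj
    by_contra hge
    rw [not_lt] at hge
    apply hno
    refine ⟨j, hj, ?_⟩
    have hj1 : 1 ≤ j := (mem_Ico.mp hj).1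
    set e := ee I.a (j - 1) with he_def
    have he : 8 ≤ e := ee_ge _ _
    have hm := I.hull_mem_thin i (j + 2) hcap
    rw [← hlev (j + 2) (by omega)] at hm
    refine ⟨_, hm.1, I.lev_subset al _ H, ?_⟩
    set C := I.lev al (j + 2) H
    set A₀ := I.lev al (j - 1) H
    have hA₀ : A₀ ∈ I.seeds i j ∧ A₀.card ≤ I.a * YY I.a i e := by
      by_cases h1 : j = 1
      · subst h1
        simp [A₀, lev, seeds, thin]
      · have hne : j - 1 ≠ 0 := by omega
        simp only [A₀, seeds, if_neg h1, hlev _ hne]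
        exact I.hull_mem_thin i (j - 1) hcap
    have hA₀C : A₀ ⊆ C := ((I.lev_pred al hal j H).trans (I.lev_succ al hal j H)).trans
      (I.lev_succ al hal (j + 1) H)
    set r := bb i ^ (6 * e) with hr_def
    have hFj : 0 ≤ I.Fv al j H := sum_nonneg fun S _ =>
      mul_nonneg (I.term_nonneg S _) (pow_nonneg I.half_pos'.le _)
    have hη : 0 < 1 / b ^ e := by positivity
    have hr := I.W_reach al hal (j := j) (H := H) (R := I.a * YY I.a i e + I.a * r)
      (ZM := I.Fv al j H + 1 / b ^ e * b) (γ := 1 + 1 / b ^ e)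
      (by positivity) (by linarith) hge ?_ r A₀ hA₀C subset_rfl
      (by rw [mul_comm r]; exact Nat.add_le_add_right hA₀.2 _)
    swap
    · intro A hA1 _ hA3
      refine (I.Z_le al hal hpos (by omega) (hA1.trans (I.lev_subset al _ H))).trans ?_
      refine add_le_add le_rfl ?_
      have h1 : ((A.card : ℝ) + 1) ≤ b ^ (8 * e) := by
        have h2 : A.card + 1 ≤ bb i ^ (8 * e) :=
          le_trans (Nat.add_le_add_right hA3 1) (radius_le hi hai he)
        rw [hbdef]; exact_mod_cast h2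
      refine (mul_le_mul_of_nonneg_right (pow_le_pow_left₀ (by positivity) h1 I.a)
        (hpos j).le).trans ?_
      have hee : ee I.a j = 8 * e + 8 * e * I.a := by
        conv_lhs => rw [show j = (j - 1) + 1 by omega, ee_succ, ← he_def, ← link_small_exp]
      simp only [al, scl, ← hbdef, hee, ← pow_mul, pow_add]
      have hp1 : (b ^ e) ≤ b ^ (8 * e) := pow_le_pow_right₀ hb1 (by omega)
      have hpa : (0:ℝ) < b ^ (8 * e * I.a) := by positivity
      calc b ^ (8 * e * I.a) * (1 / (b ^ (8 * e) * b ^ (8 * e * I.a))) = 1 / b ^ (8 * e) := by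
            field_simp
        _ ≤ 1 / b ^ e := one_div_le_one_div_of_le (by positivity) hp1
        _ ≤ _ := le_mul_of_one_le_right hη.le hb1
    have hgrow : (2:ℝ) ^ (bb i ^ (5 * e)) ≤ (1 + 1 / b ^ e) ^ r := by
      have h2 : (2:ℝ) ≤ (1 + 1 / b ^ e) ^ (bb i ^ e) := by
        refine le_trans (le_of_eq ?_) (one_add_mul_le_pow (by linarith) _)
        push_cast
        rw [← hbdef]
        field_simp
        norm_num
      have hre : r = bb i ^ e * bb i ^ (5 * e) := by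
        rw [hr_def, ← pow_add]; congr 1; ring
      calc (2:ℝ) ^ (bb i ^ (5 * e)) ≤ ((1 + 1 / b ^ e) ^ (bb i ^ e)) ^ (bb i ^ (5 * e)) :=
            pow_le_pow_left₀ zero_le_two h2 _
        _ = _ := by rw [← pow_mul, hre]
    have hje : j ≤ bb i ^ e := by
      have h1 := ee_lin I.a (j - 1)
      have h2 : 4 * e ≤ bb i ^ e := nat_le_bb_pow hi e
      omega
    have hexp := seed_exp_le hi he hje
    calc ((2 ^ (bb i ^ (4 * e)) : ℕ) : ℝ)
        ≤ (1/2) ^ (bb i ^ (3 * e) + (2 * i + j)) * 2 ^ (bb i ^ (5 * e)) := by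
          rw [← half_pow_two_mul _ _ (by omega)]
          push_cast
          exact pow_le_pow_right₀ one_le_two (by omega)
      _ ≤ (1/2) ^ (bb i ^ (3 * e) + (2 * i + j)) * ∑ U ∈ C.powerset, I.W al j r A₀ U :=
          mul_le_mul_of_nonneg_left (hgrow.trans hr) (by positivity)
      _ ≤ ∑ U ∈ C.powerset, I.wS i j U := by
          rw [mul_sum]
          refine sum_le_sum fun U _ => ?_
          unfold wS
          exact mul_le_mul_of_nonneg_left (single_le_sum (f := fun A => I.W al j r A U)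
            (fun A _ => I.W_nonneg _ _ _ _ _) hA₀.1) (by positivity)
      _ ≤ _ := sum_le_sum fun U _ => I.wS_le i N j hj U
  have hinv : ∀ j, 1 ≤ j → j ≤ N → I.Fv al j H / b + 1 ≤ 7/4 - (1/2) ^ j / 4 := by
    intro j hj
    induction j, hj using Nat.le_induction with
    | base =>
      intro _
      have : I.Fv al 1 H / b ≤ 1/2 := by rw [div_le_iff₀ hb0]; linarith
      norm_num
      linarith
    | succ j hj ih =>
      intro hjN
      have hg := hstep j (mem_Ico.mpr ⟨hj, by omega⟩)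
      have hG := ih (by omega)
      set η := 1 / b ^ ee I.a (j - 1) with hη
      have hη0 : 0 ≤ η := by positivity
      have hη1 : η ≤ (1/2) ^ (j + 5) := by
        rw [hη, one_div_pow]
        refine one_div_le_one_div_of_le (by positivity) ?_
        have hb2 : (2:ℝ) ≤ b := by
          have := bb_ge hi
          have : 2 ≤ bb i := by omega
          rw [hbdef]; exact_mod_cast this
        have := ee_lin I.a (j - 1)
        exact (pow_le_pow_right₀ one_le_two (by omega)).trans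
          (pow_le_pow_left₀ zero_le_two hb2 (ee I.a (j - 1)))
      have hη2 : η ≤ 1 := hη1.trans (pow_le_one₀ (by norm_num) (by norm_num))
      have hx : I.Fv al (j + 1) H / b ≤ (1 + η) * (I.Fv al j H / b + η) := by
        rw [div_le_iff₀ hb0]
        refine hg.le.trans (le_of_eq ?_)
        field_simp
      have hF0 : 0 ≤ I.Fv al j H / b := div_nonneg (sum_nonneg fun S _ =>
        mul_nonneg (I.term_nonneg S _) (pow_nonneg I.half_pos'.le _)) hb0.le
      have h32 : ((1:ℝ)/2) ^ (j + 5) = (1/2) ^ j / 32 := by rw [pow_add]; ring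
      rw [pow_succ]
      have hh : (0:ℝ) ≤ (1/2) ^ j := by positivity
      nlinarith [mul_le_mul_of_nonneg_left hη2 hη0,
        mul_le_mul_of_nonneg_left (show I.Fv al j H / b + 1 ≤ 2 by linarith) hη0]
  have h1 := hinv N hN.le le_rfl
  have h2 : 1 ≤ I.Fv al N H / b := by
    rw [le_div_iff₀ hb0, one_mul]
    exact hb.trans (I.below_le_Fv al hal (by omega) hsmall)
  linarith [pow_nonneg (by norm_num : (0:ℝ) ≤ 1/2) N]

/-- The core covering theorem. -/
theorem core_cover : ∃ G : Finset (Finset X),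
    (∀ H, (bb i : ℝ) ≤ I.below H → I.Phi H ≤ capB I.a i → ∃ S ∈ G, S ⊆ H) ∧
      ∑ S ∈ G, (I.p / 2) ^ S.card ≤ 6 * (1/2) ^ i := by
  have hex : ∀ S : Finset X, ∃ n : ℕ, I.v S = 0 ∨ (1/2:ℝ) ^ n ≤ I.v S := by
    intro S
    by_cases h : I.v S = 0
    · exact ⟨0, Or.inl h⟩
    · obtain ⟨n, hn⟩ := exists_pow_lt_of_lt_one (lt_of_le_of_ne (I.hv S) (Ne.symm h))
        (by norm_num : (1/2:ℝ) < 1)
      exact ⟨n, Or.inr hn.le⟩
  choose nS hnS using hex
  set N := 2 + univ.sup nS with hN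
  have hsmall : ∀ S, I.v S = 0 ∨ scl I.a i N ≤ I.v S := by
    intro S
    rcases hnS S with h | h
    · exact Or.inl h
    refine Or.inr (le_trans ?_ h)
    rw [scl, one_div_pow]
    refine one_div_le_one_div_of_le (by positivity) ?_
    have hb2 : (2:ℝ) ≤ (bb i : ℝ) := by
      have := bb_ge hi
      have : 2 ≤ bb i := by omega
      exact_mod_cast this
    have := ee_lin I.a N
    have := le_sup (f := nS) (mem_univ S)
    exact (pow_le_pow_right₀ one_le_two (by omega)).trans (pow_le_pow_left₀ zero_le_two hb2 _)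
  set TA := (I.thin (scl I.a i 2) (capB I.a i) (I.a * I.rz)).filter
    fun C => ((2 ^ (2 * i) : ℕ) : ℝ) ≤ I.mass i N C
  set TZ := (I.thin (scl I.a i 2) (capB I.a i) (YY I.a i (ee I.a 2))).filter
    fun C => ((2 ^ (2 * i * I.rz) : ℕ) : ℝ) ≤ I.mass i N C
  set TS : ℕ → Finset (Finset X) := fun j =>
    (I.thin (scl I.a i (j + 2)) (capB I.a i) (YY I.a i (ee I.a (j + 2)))).filter
      fun C => ((2 ^ (bb i ^ (4 * ee I.a (j - 1))) : ℕ) : ℝ) ≤ I.mass i N C
  set f : Finset X → ℝ := fun C => (I.p / 2) ^ C.card * exp (-I.mass i N C)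
  have hq := I.half_pos'.le
  have hf : ∀ C, 0 ≤ f C := fun C => by positivity
  obtain ⟨G, hG, hGc⟩ := rounding (I.p / 2) hq (I.wT i N) (I.wT_nonneg i N)
    (TA ∪ TZ ∪ (Finset.Ico 1 N).biUnion TS)
  refine ⟨G, ?_, ?_⟩
  · intro H hb hcap
    have key : ∀ C ∈ TA ∪ TZ ∪ (Finset.Ico 1 N).biUnion TS, C ⊆ H → ∃ S ∈ G, S ⊆ H :=
      fun C hC hCH => by obtain ⟨S, h1, h2⟩ := hG C hC; exact ⟨S, h1, h2.trans hCH⟩
    rcases I.exists_container hi hai (by omega) hsmall hb hcap with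
      ⟨C, h1, h2, h3⟩ | ⟨C, h1, h2, h3⟩ | ⟨j, hj, C, h1, h2, h3⟩
    · exact key C (mem_union_left _ (mem_union_left _ (mem_filter.mpr ⟨h1, h3⟩))) h2
    · exact key C (mem_union_left _ (mem_union_right _ (mem_filter.mpr ⟨h1, h3⟩))) h2
    · exact key C (mem_union_right _ (mem_biUnion.mpr ⟨j, hj, mem_filter.mpr ⟨h1, h3⟩⟩)) h2
  have hthin : ∀ j m, ∑ C ∈ I.thin (scl I.a i j) (capB I.a i) m, (I.p / 2) ^ C.card
      ≤ ((YY I.a i (ee I.a j) + 1) ^ m : ℕ) := by
    intro j m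
    push_cast
    exact I.thin_sum (scl_pos _ _ _) (cap_eq I.a i j).le (Nat.cast_nonneg _) m
  have hA : ∑ C ∈ TA, f C ≤ (1/2) ^ i := by
    refine tail_bound hq _ _ (x := 8 * i * (ee I.a 2 + 3) * (I.a * I.rz)) ?_
      (caseA_exp_le hi hai I.ha)
    refine (hthin 2 _).trans ?_
    have : (YY I.a i (ee I.a 2) + 1) ^ (I.a * I.rz)
        ≤ 2 ^ (8 * i * (ee I.a 2 + 3) * (I.a * I.rz)) := by
      rw [pow_mul 2 (8 * i * (ee I.a 2 + 3)), pow_mul 2 (8 * i)]
      exact Nat.pow_le_pow_left (YY_le hi hai _) _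
    exact_mod_cast this
  have hZ : ∑ C ∈ TZ, f C ≤ (1/2) ^ i := by
    refine tail_bound hq _ _ (x := bb i ^ (3 * ee I.a 2)) ?_ (case0_exp_le hi)
    exact (hthin 2 _).trans (by exact_mod_cast YY_pow_le hi hai (ee_ge _ _) le_rfl)
  have hS : ∀ j ∈ Finset.Ico 1 N, ∑ C ∈ TS j, f C ≤ (1/2) ^ i * (1/2) ^ j := by
    intro j hj
    have hj1 := (mem_Ico.mp hj).1
    rw [← pow_add]
    have heq : ee I.a (j + 2) = DD I.a ^ 3 * ee I.a (j - 1) := by
      rw [show j + 2 = (j - 1) + 1 + 1 + 1 by omega, ee_succ, ee_succ, ee_succ]; ring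
    have hje : j ≤ bb i ^ ee I.a (j - 1) := by
      have h1 := ee_lin I.a (j - 1)
      have h2 := nat_le_bb_pow hi (ee I.a (j - 1))
      omega
    refine tail_bound hq _ _ (x := bb i ^ (3 * ee I.a (j + 2))) ?_ ?_
    · exact (hthin _ _).trans (by exact_mod_cast YY_pow_le hi hai (ee_ge _ _) le_rfl)
    · rw [heq]; exact tail_exp_le hi hai I.ha (ee_ge _ _) hje
  have hSsum : ∑ C ∈ (Finset.Ico 1 N).biUnion TS, f C ≤ (1/2) ^ i := by
    refine (sum_biUnion_le_sum _ _ f hf).trans ((sum_le_sum hS).trans ?_)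
    rw [← mul_sum]
    refine mul_le_of_le_one_right (by positivity) ?_
    rw [sum_Ico_eq_sum_range]
    simp only [pow_add, pow_one, ← mul_sum]
    linarith [sum_geometric_two_le (N - 1)]
  have hun : ∑ C ∈ TA ∪ TZ ∪ (Finset.Ico 1 N).biUnion TS, f C ≤ 3 * (1/2) ^ i := by
    have h1 := sum_union_inter (s₁ := TA ∪ TZ) (s₂ := (Finset.Ico 1 N).biUnion TS) (f := f)
    have h2 := sum_union_inter (s₁ := TA) (s₂ := TZ) (f := f)
    linarith [sum_nonneg (s := TA ∩ TZ) fun C _ => hf C,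
      sum_nonneg (s := (TA ∪ TZ) ∩ (Finset.Ico 1 N).biUnion TS) fun C _ => hf C]
  have hw := I.wT_cost hi hai N
  simp only [f, mass] at hun
  linarith

end Inst

end Vale.Agent.P034
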