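import Mathlib

namespace Vale.Agent.P034

variable {X : Type}

/-- Every member of `F` contains a member of `G`. -/
def IsCover (F G : Finset (Finset X)) : Prop :=
  ∀ H ∈ F, ∃ S ∈ G, S ⊆ H

/-- `F` is `p`-small: it has a cover of cost at most `1/2` at `p`. -/
def Small (F : Finset (Finset X)) (p : ℝ) : Prop :=
  ∃ G : Finset (Finset X), IsCover F G ∧ ∑ S ∈ G, p ^ S.card ≤ 1 / 2

/-- `F` has a fractional cover of cost at most `1/2` at `p`. -/
def FracSmall [Fintype X] (F : Finset (Finset X)) (p : ℝ) : Prop :=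
  ∃ g : Finset X → ℝ, (∀ S, 0 ≤ g S ∧ g S ≤ 1) ∧
    (∀ H ∈ F, 1 ≤ ∑ S ∈ H.powerset, g S) ∧
    ∑ S : Finset X, g S * p ^ S.card ≤ 1 / 2

/-- The integral expectation threshold. -/
noncomputable def qThr (F : Finset (Finset X)) : ℝ :=
  sSup {p : ℝ | 0 ≤ p ∧ p ≤ 1 ∧ Small F p}

/-- The fractional expectation threshold. -/
noncomputable def qfThr [Fintype X] (F : Finset (Finset X)) : ℝ :=
  sSup {p : ℝ | 0 ≤ p ∧ p ≤ 1 ∧ FracSmall F p}

end Vale.Agent.P034
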