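import Vale.Agent.P034.Thin

namespace Vale.Agent.P034.Inst

open Finset

variable {X : Type} [Fintype X] [DecidableEq X] (I : Inst X) (al : ℕ → ℝ)

/-- The level `j` core of a set. -/
noncomputable def lev (j : ℕ) (S : Finset X) : Finset X := if j = 0 then ∅ else I.hull (al j) S

/-- Admissible supports at stage `j` from `A`. -/
noncomputable def Sts (j : ℕ) (A : Finset X) : Finset (Finset X) :=
  univ.filter fun S => I.lev al (j - 1) S ⊆ A

/-- Admissible increments. -/
noncomputable def Ns (j : ℕ) (S A : Finset X) : Finset (Finset X) :=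
  Icc (I.lev al j S \ A) (I.lev al (j + 1) S \ A)

/-- Kernel mass. -/
noncomputable def kap (j : ℕ) (S A : Finset X) : ℝ :=
  I.v S * I.p ^ (S \ I.lev al (j + 1) S).card * (I.p / 2) ^ (I.lev al (j + 1) S \ A).card

/-- Total kernel mass. -/
noncomputable def Z (j : ℕ) (A : Finset X) : ℝ :=
  ∑ S ∈ I.Sts al j A, ∑ _N ∈ I.Ns al j S A, I.kap al j S A

/-- Iterated kernel weights. -/
noncomputable def W (j : ℕ) : ℕ → Finset X → Finset X → ℝ
  | 0 => fun A U => if U = A then 1 else 0
  | r + 1 => fun A U => ∑ S ∈ I.Sts al j A, ∑ N ∈ I.Ns al j S A,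
      I.kap al j S A / (I.Z al j A * (I.p / 2) ^ N.card) * W j r (A ∪ N) U

/-- The level `j` functional. -/
noncomputable def Fv (j : ℕ) (H : Finset X) : ℝ :=
  ∑ S ∈ univ.filter (fun S => I.lev al (j - 1) S ⊆ H),
    I.v S * I.p ^ (S \ I.lev al j S).card * (I.p / 2) ^ (I.lev al j S \ I.lev al (j + 1) H).card

lemma half_pos' : 0 < I.p / 2 := by linarith [I.hp]

lemma lev_subset (j : ℕ) (S : Finset X) : I.lev al j S ⊆ S := by
  unfold lev; split_ifs
  · exact empty_subset _
  · exact I.hull_subset _ _

lemma lev_succ (hal : ∀ j, al (j + 1) ≤ al j) (j : ℕ) (S : Finset X) :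
    I.lev al j S ⊆ I.lev al (j + 1) S := by
  unfold lev
  rw [if_neg (Nat.succ_ne_zero j)]
  split_ifs
  · exact empty_subset _
  · exact I.hull_anti (hal j) S

lemma lev_pred (hal : ∀ j, al (j + 1) ≤ al j) (j : ℕ) (S : Finset X) :
    I.lev al (j - 1) S ⊆ I.lev al j S := by
  cases j with
  | zero => exact subset_rfl
  | succ k => simpa using I.lev_succ al hal k S

lemma lev_into {j : ℕ} {S H : Finset X} (h : I.lev al j S ⊆ H) :
    I.lev al j S ⊆ I.lev al j H := by
  unfold lev at *
  split_ifs with hj
  · exact empty_subset _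
  · rw [if_neg hj] at h; exact I.hull_into h

lemma kap_nonneg (j : ℕ) (S A : Finset X) : 0 ≤ I.kap al j S A :=
  mul_nonneg (I.term_nonneg S _) (pow_nonneg I.half_pos'.le _)

lemma Z_nonneg (j : ℕ) (A : Finset X) : 0 ≤ I.Z al j A :=
  sum_nonneg fun S _ => sum_nonneg fun _ _ => I.kap_nonneg al j S A

lemma W_nonneg (j r : ℕ) : ∀ A U : Finset X, 0 ≤ I.W al j r A U := by
  induction r with
  | zero => intro A U; simp only [W]; split_ifs <;> norm_num
  | succ r ih =>
    intro A U
    simp only [W]
    exact sum_nonneg fun S _ => sum_nonneg fun N _ => mul_nonneg (div_nonneg (I.kap_nonneg al j S A)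
      (mul_nonneg (I.Z_nonneg al j A) (pow_nonneg I.half_pos'.le _))) (ih _ _)

lemma W_cost (j r : ℕ) :
    ∀ A : Finset X, ∑ U : Finset X, I.W al j r A U * (I.p / 2) ^ U.card ≤ (I.p / 2) ^ A.card := by
  induction r with
  | zero => intro A; simp [W]
  | succ r ih =>
    intro A
    simp only [W, sum_mul]
    rw [sum_comm]
    calc ∑ S ∈ I.Sts al j A, ∑ U : Finset X, ∑ N ∈ I.Ns al j S A,
          I.kap al j S A / (I.Z al j A * (I.p / 2) ^ N.card) * I.W al j r (A ∪ N) U
            * (I.p / 2) ^ U.card
        ≤ ∑ S ∈ I.Sts al j A, ∑ N ∈ I.Ns al j S A,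
          I.kap al j S A / I.Z al j A * (I.p / 2) ^ A.card := by
          refine sum_le_sum fun S _ => ?_
          rw [sum_comm]
          refine sum_le_sum fun N hN => ?_
          simp only [mul_assoc, ← mul_sum]
          have hdisj : Disjoint A N :=
            disjoint_of_subset_right (mem_Icc.mp hN).2 disjoint_sdiff
          have h1 := ih (A ∪ N)
          rw [card_union_of_disjoint hdisj, pow_add] at h1
          have hc : 0 ≤ I.kap al j S A / (I.Z al j A * (I.p / 2) ^ N.card) :=
            div_nonneg (I.kap_nonneg al j S A)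
              (mul_nonneg (I.Z_nonneg al j A) (pow_nonneg I.half_pos'.le _))
          refine (mul_le_mul_of_nonneg_left h1 hc).trans (le_of_eq ?_)
          have hn : (I.p / 2) ^ N.card ≠ 0 := (pow_pos I.half_pos' _).ne'
          field_simp
      _ = I.Z al j A / I.Z al j A * (I.p / 2) ^ A.card := by
          simp only [Z, ← sum_mul, ← sum_div]
      _ ≤ _ := mul_le_of_le_one_left (pow_nonneg I.half_pos'.le _) (div_self_le_one _)

lemma W_reach (hal : ∀ j, al (j + 1) ≤ al j) {j : ℕ} {H : Finset X} {R : ℕ} {ZM γ : ℝ}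
    (hZM : 0 < ZM) (hγ : 0 < γ) (hF : γ * ZM ≤ I.Fv al (j + 1) H)
    (hZ : ∀ A, A ⊆ I.lev al (j + 2) H → I.lev al (j - 1) H ⊆ A → A.card ≤ R →
      I.Z al j A ≤ ZM) :
    ∀ r A, A ⊆ I.lev al (j + 2) H → I.lev al (j - 1) H ⊆ A → A.card + r * I.a ≤ R →
      γ ^ r ≤ ∑ U ∈ (I.lev al (j + 2) H).powerset, I.W al j r A U := by
  set C := I.lev al (j + 2) H
  intro r
  induction r with
  | zero =>
    intro A hAC _ _
    simp [W, hAC]
  | succ r ih =>
    intro A hAC hTA hcard
    set good := univ.filter (fun S => I.lev al j S ⊆ H) with hgood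
    set t : Finset X → ℝ := fun S => I.v S * I.p ^ (S \ I.lev al (j + 1) S).card *
      (I.p / 2) ^ (I.lev al (j + 1) S \ C).card with ht
    set NS : Finset X → Finset X := fun S => (I.lev al (j + 1) S ∩ C) \ A with hNS
    have hFv : I.Fv al (j + 1) H = ∑ S ∈ good, t S := by
      simp [Fv, hgood, ht, C]
    have hkap : ∀ S, I.kap al j S A = t S * (I.p / 2) ^ (NS S).card := by
      intro S
      simp only [kap, ht]
      rw [mul_assoc (I.v S * _), ← pow_add]
      congr 2
      rw [← card_union_of_disjoint]
      · congr 1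
        ext x
        simp only [hNS, mem_sdiff, mem_union, mem_inter]
        have := @hAC x
        tauto
      · rw [disjoint_left]
        intro x hx
        simp only [hNS, mem_sdiff, mem_inter] at hx ⊢
        tauto
    have hsub : good ⊆ I.Sts al j A := by
      intro S hS
      simp only [hgood, mem_filter, mem_univ, true_and] at hS
      simp only [Sts, mem_filter, mem_univ, true_and]
      exact (I.lev_into al ((I.lev_pred al hal j S).trans hS)).trans hTA
    have hNmem : ∀ S ∈ good, NS S ∈ I.Ns al j S A := by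
      intro S hS
      simp only [hgood, mem_filter, mem_univ, true_and] at hS
      have h1 : I.lev al j S ⊆ C :=
        (I.lev_into al hS).trans ((I.lev_succ al hal j H).trans (I.lev_succ al hal (j + 1) H))
      refine mem_Icc.mpr ⟨?_, sdiff_subset_sdiff inter_subset_left subset_rfl⟩
      intro x hx
      rw [mem_sdiff] at hx
      exact mem_sdiff.mpr ⟨mem_inter.mpr ⟨I.lev_succ al hal j S hx.1, h1 hx.1⟩, hx.2⟩
    have hFpos : 0 < ∑ S ∈ good, t S := by
      rw [← hFv]; exact (mul_pos hγ hZM).trans_le hF
    have hZpos : 0 < I.Z al j A := by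
      refine (I.Z_nonneg al j A).lt_of_ne' ?_
      intro hz
      refine hFpos.ne' (sum_eq_zero fun S hS => ?_)
      have h0 := (sum_eq_zero_iff_of_nonneg fun S _ => sum_nonneg fun _ _ =>
        I.kap_nonneg al j S A).mp hz S (hsub hS)
      have h1 := (sum_eq_zero_iff_of_nonneg fun _ _ => I.kap_nonneg al j S A).mp h0 _
        (hNmem S hS)
      rw [hkap] at h1
      exact (mul_eq_zero.mp h1).resolve_right (pow_pos I.half_pos' _).ne'
    have hZA : I.Z al j A ≤ ZM := hZ A hAC hTA (by omega)
    calc γ ^ (r + 1) = γ * γ ^ r := pow_succ' γ r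
      _ ≤ (∑ S ∈ good, t S) / I.Z al j A * γ ^ r := by
          refine mul_le_mul_of_nonneg_right ?_ (pow_nonneg hγ.le _)
          rw [le_div_iff₀ hZpos, ← hFv]
          exact (mul_le_mul_of_nonneg_left hZA hγ.le).trans hF
      _ = ∑ S ∈ good, t S / I.Z al j A * γ ^ r := by rw [sum_div, sum_mul]
      _ ≤ ∑ S ∈ good, I.kap al j S A / (I.Z al j A * (I.p / 2) ^ (NS S).card)
            * ∑ U ∈ C.powerset, I.W al j r (A ∪ NS S) U := by
          refine sum_le_sum fun S hS => ?_
          have hn : (I.p / 2) ^ (NS S).card ≠ 0 := (pow_pos I.half_pos' _).ne'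
          have he : I.kap al j S A / (I.Z al j A * (I.p / 2) ^ (NS S).card)
              = t S / I.Z al j A := by
            rw [hkap, mul_div_mul_right _ _ hn]
          rw [he]
          by_cases hv : I.v S = 0
          · simp [ht, hv]
          have ht0 : 0 ≤ t S := mul_nonneg (I.term_nonneg S _) (pow_nonneg I.half_pos'.le _)
          refine mul_le_mul_of_nonneg_left ?_ (div_nonneg ht0 hZpos.le)
          have hNC : NS S ⊆ C := (sdiff_subset.trans inter_subset_right)
          refine ih (A ∪ NS S) (union_subset hAC hNC) (hTA.trans subset_union_left) ?_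
          have h1 : (A ∪ NS S).card ≤ A.card + (NS S).card := card_union_le _ _
          have h2 : (NS S).card ≤ I.a := (card_le_card
            (sdiff_subset.trans (inter_subset_left.trans (I.lev_subset al _ S)))).trans
            (I.hsupp S hv).le
          rw [Nat.succ_mul] at hcard
          omega
      _ ≤ ∑ S ∈ good, ∑ N ∈ I.Ns al j S A, I.kap al j S A / (I.Z al j A * (I.p / 2) ^ N.card)
            * ∑ U ∈ C.powerset, I.W al j r (A ∪ N) U := by
          refine sum_le_sum fun S hS => ?_
          exact single_le_sum (f := fun N => I.kap al j S A / (I.Z al j A * (I.p / 2) ^ N.card)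
              * ∑ U ∈ C.powerset, I.W al j r (A ∪ N) U)
            (fun N _ => mul_nonneg (div_nonneg (I.kap_nonneg al j S A)
              (mul_nonneg hZpos.le (pow_nonneg I.half_pos'.le _)))
              (sum_nonneg fun U _ => I.W_nonneg al j r _ _)) (hNmem S hS)
      _ ≤ ∑ S ∈ I.Sts al j A, ∑ N ∈ I.Ns al j S A,
            I.kap al j S A / (I.Z al j A * (I.p / 2) ^ N.card)
            * ∑ U ∈ C.powerset, I.W al j r (A ∪ N) U :=
          sum_le_sum_of_subset_of_nonneg hsub fun S _ _ => sum_nonneg fun N _ =>
            mul_nonneg (div_nonneg (I.kap_nonneg al j S A)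
              (mul_nonneg hZpos.le (pow_nonneg I.half_pos'.le _)))
              (sum_nonneg fun U _ => I.W_nonneg al j r _ _)
      _ = _ := by
          simp only [W, mul_sum]
          rw [sum_comm (s := C.powerset)]
          exact sum_congr rfl fun S _ => sum_comm

lemma Z_eq (hal : ∀ j, al (j + 1) ≤ al j) (j : ℕ) (A : Finset X) :
    I.Z al j A = ∑ S ∈ I.Sts al j A, I.v S * I.p ^ (S \ I.lev al (j + 1) S).card *
      (I.p / 2) ^ (I.lev al j S \ A).card *
      I.p ^ (I.lev al (j + 1) S \ (I.lev al j S ∪ A)).card := by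
  refine sum_congr rfl fun S _ => ?_
  have hsub : I.lev al j S \ A ⊆ I.lev al (j + 1) S \ A :=
    sdiff_subset_sdiff (I.lev_succ al hal j S) subset_rfl
  have he : (I.lev al (j + 1) S \ A) \ (I.lev al j S \ A)
      = I.lev al (j + 1) S \ (I.lev al j S ∪ A) := by
    ext x; simp only [mem_sdiff, mem_union]; tauto
  have hc := card_sdiff_add_card_eq_card hsub
  rw [he] at hc
  rw [sum_const, Ns, card_Icc_finset hsub, nsmul_eq_mul, kap, ← hc, pow_add]
  rw [Nat.add_sub_cancel]
  push_cast
  rw [div_pow I.p 2 (I.lev al (j + 1) S \ (I.lev al j S ∪ A)).card]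
  field_simp

lemma Z_zero_le (hal : ∀ j, al (j + 1) ≤ al j) (A : Finset X) : I.Z al 0 A ≤ I.Phi A := by
  rw [I.Z_eq al hal]
  refine (sum_le_sum (g := fun S => I.v S * I.p ^ (S \ A).card) fun S _ => ?_).trans
    (sum_le_sum_of_subset_of_nonneg (subset_univ _) fun S _ _ => I.term_nonneg S _)
  simp only [lev, if_true, empty_sdiff, card_empty, pow_zero, mul_one, empty_union]
  rw [mul_assoc, ← pow_add]
  refine mul_le_mul_of_nonneg_left (I.ppow_anti
    (le_trans (card_le_card ?_) (card_union_le _ _))) (I.hv S)
  intro x; simp only [mem_sdiff, mem_union]; tauto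

omit [Fintype X] in
lemma card_small_subsets (A : Finset X) (k : ℕ) :
    (A.powerset.filter fun B => B.card ≤ k).card ≤ (A.card + 1) ^ k := by
  induction k with
  | zero =>
    refine card_le_one.mpr fun B hB B' hB' => ?_
    simp only [mem_filter, Nat.le_zero, card_eq_zero] at hB hB'
    rw [hB.2, hB'.2]
  | succ k ih =>
    set s := A.powerset.filter fun B => B.card ≤ k
    have hsub : (A.powerset.filter fun B => B.card ≤ k + 1)
        ⊆ s ∪ (A ×ˢ s).image fun xB => insert xB.1 xB.2 := by
      intro B hB
      simp only [mem_filter, mem_powerset] at hB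
      by_cases hk : B.card ≤ k
      · exact mem_union_left _ (mem_filter.mpr ⟨mem_powerset.mpr hB.1, hk⟩)
      · obtain ⟨x, hx⟩ := card_pos.mp (show 0 < B.card by omega)
        refine mem_union_right _ (mem_image.mpr ⟨(x, B.erase x), ?_, insert_erase hx⟩)
        refine mem_product.mpr ⟨hB.1 hx, mem_filter.mpr ⟨mem_powerset.mpr
          ((erase_subset _ _).trans hB.1), ?_⟩⟩
        rw [card_erase_of_mem hx]; omega
    calc _ ≤ _ := card_le_card hsub
      _ ≤ s.card + ((A ×ˢ s).image _).card := card_union_le _ _
      _ ≤ s.card + A.card * s.card := by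
          rw [← card_product]; exact Nat.add_le_add_left card_image_le _
      _ ≤ (A.card + 1) ^ (k + 1) := by
          rw [pow_succ]
          calc s.card + A.card * s.card = s.card * (A.card + 1) := by ring
            _ ≤ _ := Nat.mul_le_mul_right _ ih

lemma Z_le (hal : ∀ j, al (j + 1) ≤ al j) (hpos : ∀ j, 0 < al j) {j : ℕ} (hj : j ≠ 0)
    {H A : Finset X} (hAH : A ⊆ H) :
    I.Z al j A ≤ I.Fv al j H + ((A.card : ℝ) + 1) ^ I.a * al j := by
  rw [I.Z_eq al hal]
  set T := A.powerset.filter fun B => B.card ≤ I.a ∧ I.link B < al j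
  set P : Finset X → Prop := fun S => al (j + 1) ≤ I.link (I.lev al (j + 1) S ∩ A) ∧
    I.lev al (j + 1) S ∩ A ⊆ I.lev al j S
  classical
  rw [← sum_filter_add_sum_filter_not (I.Sts al j A) P]
  refine add_le_add ?_ ?_
  · refine (sum_le_sum (g := fun S => I.v S * I.p ^ (S \ I.lev al j S).card *
      (I.p / 2) ^ (I.lev al j S \ I.lev al (j + 1) H).card) ?_).trans
      (sum_le_sum_of_subset_of_nonneg ?_ fun S _ _ =>
        mul_nonneg (I.term_nonneg S _) (pow_nonneg I.half_pos'.le _))
    · intro S hS
      simp only [mem_filter, P] at hS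
      obtain ⟨-, hlink, hBU⟩ := hS
      have hB : I.lev al (j + 1) S ∩ A ⊆ I.lev al (j + 1) H := by
        have := I.subset_hull (S := H) (inter_subset_right.trans hAH) hlink
        simpa [lev] using this
      have h1 : I.lev al j S \ I.lev al (j + 1) H ⊆ I.lev al j S \ A := by
        intro x hx
        simp only [mem_sdiff] at hx ⊢
        exact ⟨hx.1, fun hxA => hx.2 (hB (mem_inter.mpr ⟨I.lev_succ al hal j S hx.1, hxA⟩))⟩
      have h2 : (S \ I.lev al j S).card ≤ (S \ I.lev al (j + 1) S).card
          + (I.lev al (j + 1) S \ (I.lev al j S ∪ A)).card := by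
        refine le_trans (card_le_card ?_) (card_union_le _ _)
        intro x hx
        simp only [mem_sdiff, mem_union] at hx ⊢
        by_cases hx1 : x ∈ I.lev al (j + 1) S
        · refine Or.inr ⟨hx1, ?_⟩
          rintro (h | h)
          · exact hx.2 h
          · exact hx.2 (hBU (mem_inter.mpr ⟨hx1, h⟩))
        · exact Or.inl ⟨hx.1, hx1⟩
      have h3 : (I.p / 2) ^ (I.lev al j S \ A).card
          ≤ (I.p / 2) ^ (I.lev al j S \ I.lev al (j + 1) H).card :=
        pow_le_pow_of_le_one I.half_pos'.le (by linarith [I.hp1, I.hp]) (card_le_card h1)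
      calc _ = I.v S * I.p ^ ((S \ I.lev al (j + 1) S).card
            + (I.lev al (j + 1) S \ (I.lev al j S ∪ A)).card)
            * (I.p / 2) ^ (I.lev al j S \ A).card := by rw [pow_add]; ring
        _ ≤ _ := mul_le_mul (mul_le_mul_of_nonneg_left (I.ppow_anti h2) (I.hv S)) h3
            (pow_nonneg I.half_pos'.le _) (I.term_nonneg S _)
    · intro S hS
      simp only [mem_filter, Sts, mem_univ, true_and] at hS ⊢
      exact hS.1.trans hAH
  · calc _ ≤ ∑ S : Finset X, ∑ B ∈ T.filter (· ⊆ S), I.v S * I.p ^ (S \ B).card := by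
          refine (sum_le_sum ?_).trans (sum_le_sum_of_subset_of_nonneg (subset_univ _)
            fun S _ _ => sum_nonneg fun B _ => I.term_nonneg S _)
          intro S hS
          simp only [mem_filter, P] at hS
          by_cases hv : I.v S = 0
          · simp [hv]
          set B := I.lev al (j + 1) S ∩ A with hBdef
          have hBS : B ⊆ S := inter_subset_left.trans (I.lev_subset al _ S)
          have hlink : I.link B < al j := by
            by_contra hc
            have hge := not_lt.mp hc
            exact hS.2 ⟨(hal j).trans hge, by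
              have := I.subset_hull hBS hge
              simpa [lev, hj] using this⟩
          have hBT : B ∈ T.filter (· ⊆ S) :=
            mem_filter.mpr ⟨mem_filter.mpr ⟨mem_powerset.mpr inter_subset_right,
              (card_le_card hBS).trans (I.hsupp S hv).le, hlink⟩, hBS⟩
          refine le_trans ?_ (single_le_sum (f := fun B => I.v S * I.p ^ (S \ B).card)
            (fun B _ => I.term_nonneg S _) hBT)
          have hc : (S \ B).card ≤ (S \ I.lev al (j + 1) S).card + ((I.lev al j S \ A).card
              + (I.lev al (j + 1) S \ (I.lev al j S ∪ A)).card) := by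
            refine le_trans (le_trans (card_le_card ?_) (card_union_le _ _))
              (Nat.add_le_add_left (card_union_le _ _) _)
            intro x
            simp only [hBdef, mem_sdiff, mem_union, mem_inter]
            tauto
          calc _ ≤ I.v S * I.p ^ (S \ I.lev al (j + 1) S).card *
                I.p ^ (I.lev al j S \ A).card *
                I.p ^ (I.lev al (j + 1) S \ (I.lev al j S ∪ A)).card :=
                mul_le_mul_of_nonneg_right (mul_le_mul_of_nonneg_left
                  (pow_le_pow_left₀ I.half_pos'.le (by linarith [I.hp]) _) (I.term_nonneg S _))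
                  (pow_nonneg I.p_nonneg _)
            _ = I.v S * I.p ^ ((S \ I.lev al (j + 1) S).card + ((I.lev al j S \ A).card
              + (I.lev al (j + 1) S \ (I.lev al j S ∪ A)).card)) := by
                rw [pow_add, pow_add]; ring
            _ ≤ _ := mul_le_mul_of_nonneg_left (I.ppow_anti hc) (I.hv S)
      _ = ∑ B ∈ T, I.link B := by
          simp only [link]
          exact sum_comm' (by intro S B; simp [and_comm])
      _ ≤ ∑ _B ∈ T, al j := sum_le_sum fun B hB => (mem_filter.mp hB).2.2.le
      _ = (T.card : ℝ) * al j := by rw [sum_const, nsmul_eq_mul]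
      _ ≤ _ := by
          refine mul_le_mul_of_nonneg_right ?_ (hpos j).le
          have : T.card ≤ (A.card + 1) ^ I.a :=
            (card_le_card (monotone_filter_right _ fun B _ h => h.1)).trans
              (card_small_subsets A I.a)
          exact_mod_cast this

lemma below_le_Fv (hal : ∀ j, al (j + 1) ≤ al j) {N : ℕ} (hN : N ≠ 0) {H : Finset X}
    (hsmall : ∀ S, I.v S = 0 ∨ al N ≤ I.v S) : I.below H ≤ I.Fv al N H := by
  unfold below Fv
  refine (sum_le_sum (g := fun S => I.v S * I.p ^ (S \ I.lev al N S).card *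
    (I.p / 2) ^ (I.lev al N S \ I.lev al (N + 1) H).card) ?_).trans
    (sum_le_sum_of_subset_of_nonneg ?_ fun S _ _ =>
      mul_nonneg (I.term_nonneg S _) (pow_nonneg I.half_pos'.le _))
  · intro S hS
    rw [mem_powerset] at hS
    rcases hsmall S with h0 | hle
    · simp [h0]
    have hlev : I.lev al N S = S := by
      refine (I.lev_subset al N S).antisymm ?_
      simpa [lev, hN] using I.subset_hull (S := S) subset_rfl (hle.trans (I.link_self S))
    have hlevH : S ⊆ I.lev al (N + 1) H := by
      simpa [lev] using I.subset_hull hS ((hal N).trans (hle.trans (I.link_self S)))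
    rw [hlev, sdiff_eq_empty_iff_subset.mpr hlevH]
    simp
  · intro S hS
    rw [mem_powerset] at hS
    simp only [mem_filter, mem_univ, true_and]
    exact (I.lev_subset al _ S).trans hS

end Vale.Agent.P034.Inst
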