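import Vale.Agent.P034.Defs
import Vale.Agent.P034.Core

namespace Vale.Agent.P034

open Finset

variable {X : Type} [Fintype X] [DecidableEq X]

/-- Projection of a `t`-uniform weight to level `j`. -/
noncomputable def proj (u : Finset X → ℝ) (p : ℝ) (t j : ℕ) (B : Finset X) : ℝ :=
  if B.card = j then
    (∑ S ∈ univ.filter (fun S : Finset X => B ⊆ S), u S * p ^ (t - j)) / (t.choose j : ℝ)
  else 0

/-- Weight of the projection inside a set. -/
noncomputable def theta (u : Finset X → ℝ) (p : ℝ) (t j : ℕ) (H : Finset X) : ℝ :=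
  ∑ B ∈ H.powerset, proj u p t j B

section Proj

variable {u : Finset X → ℝ} {p : ℝ} {t : ℕ}

lemma proj_sum (f : Finset X → ℝ) (j : ℕ) :
    ∑ B : Finset X, proj u p t j B * f B =
      ∑ S : Finset X, ∑ B ∈ S.powersetCard j, u S * p ^ (t - j) / (t.choose j : ℝ) * f B := by
  simp only [proj, ite_mul, zero_mul, ← sum_filter, sum_div, sum_mul]
  exact sum_comm' (by intro B S; simp [mem_powersetCard]; tauto)

lemma proj_nonneg (hu : ∀ S, 0 ≤ u S) (hp : 0 ≤ p) (j : ℕ) (B : Finset X) :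
    0 ≤ proj u p t j B := by
  unfold proj
  split_ifs
  · exact div_nonneg (sum_nonneg fun S _ => mul_nonneg (hu S) (pow_nonneg hp _)) (Nat.cast_nonneg _)
  · exact le_rfl

lemma proj_card (j : ℕ) (B : Finset X) (h : proj u p t j B ≠ 0) : B.card = j := by
  by_contra hc
  exact h (by simp [proj, hc])

lemma proj_cost (hsupp : ∀ S, u S ≠ 0 → S.card = t) {j : ℕ} (hj : j ≤ t) :
    ∑ B : Finset X, proj u p t j B * p ^ B.card = ∑ S : Finset X, u S * p ^ t := by
  rw [proj_sum]
  refine sum_congr rfl fun S _ => ?_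
  by_cases hS : u S = 0
  · simp [hS]
  rw [sum_congr rfl (fun B hB => by rw [(mem_powersetCard.mp hB).2]), sum_const, card_powersetCard,
    hsupp S hS, nsmul_eq_mul]
  have hc : (t.choose j : ℝ) ≠ 0 := by
    have := Nat.choose_pos hj
    positivity
  conv_rhs => rw [← Nat.sub_add_cancel hj, pow_add]
  field_simp

lemma theta_eq (j : ℕ) (H : Finset X) :
    theta u p t j H =
      ∑ S : Finset X, ((S ∩ H).card.choose j : ℝ) * (u S * p ^ (t - j) / (t.choose j : ℝ)) := by
  have h := proj_sum (u := u) (p := p) (t := t) (fun B => if B ⊆ H then (1:ℝ) else 0) j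
  simp only [mul_ite, mul_one, mul_zero, ← sum_filter] at h
  have e : (univ.filter fun B : Finset X => B ⊆ H) = H.powerset := by ext B; simp
  rw [e] at h
  rw [theta, h]
  refine sum_congr rfl fun S _ => ?_
  rw [sum_const, nsmul_eq_mul]
  congr 2
  rw [← card_powersetCard]
  congr 1
  ext B
  simp only [mem_filter, mem_powersetCard, subset_inter_iff]
  tauto

lemma theta_zero_le (H : Finset X) (hcost : ∑ S : Finset X, u S * p ^ t ≤ 1) :
    theta u p t 0 H ≤ 1 := by
  rw [theta_eq]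
  simpa using hcost

lemma theta_top (H : Finset X) (hsupp : ∀ S, u S ≠ 0 → S.card = t) :
    theta u p t t H = ∑ S ∈ H.powerset, u S := by
  refine sum_congr rfl fun B _ => ?_
  unfold proj
  split_ifs with h
  · simp only [Nat.sub_self, pow_zero, mul_one, Nat.choose_self, Nat.cast_one, div_one]
    refine sum_eq_single B (fun S hS hne => ?_) (fun hB => absurd (by simp) hB)
    by_contra hS0
    simp only [mem_filter, mem_univ, true_and] at hS
    exact hne (eq_of_subset_of_card_le hS (by rw [hsupp S hS0, h])).symm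
  · by_contra hne
    exact h (hsupp B (Ne.symm hne))

lemma proj_load_le (hu : ∀ S, 0 ≤ u S) (hp : 0 ≤ p) (hsupp : ∀ S, u S ≠ 0 → S.card = t)
    {a : ℕ} (ha : a ≤ t) (H : Finset X) :
    ∑ B : Finset X, proj u p t a B * p ^ (B \ H).card
      ≤ ∑ j ∈ range (a + 1), (a.choose j : ℝ) * theta u p t j H := by
  simp only [theta_eq, mul_sum]
  rw [proj_sum, sum_comm (s := range (a + 1))]
  refine sum_le_sum fun S _ => ?_
  by_cases hS : u S = 0
  · simp [hS]
  have hSt := hsupp S hS
  set h := (S ∩ H).card with hh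
  rw [← sum_fiberwise_of_maps_to (t := range (a + 1)) (g := fun B => (B ∩ H).card)
    (fun B hB => mem_range.mpr (Nat.lt_succ_of_le
      ((card_le_card inter_subset_left).trans (mem_powersetCard.mp hB).2.le)))]
  refine sum_le_sum fun j hj => ?_
  have hja : j ≤ a := Nat.lt_succ_iff.mp (mem_range.mp hj)
  set fib := (S.powersetCard a).filter fun B => (B ∩ H).card = j
  have hval : ∀ B ∈ fib, u S * p ^ (t - a) / (t.choose a : ℝ) * p ^ (B \ H).card
      = u S * p ^ (t - j) / (t.choose a : ℝ) := by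
    intro B hB
    simp only [fib, mem_filter, mem_powersetCard] at hB
    have hBH : (B \ H).card = a - j := by
      have := card_sdiff_add_card_inter B H
      omega
    rw [hBH, div_mul_eq_mul_div, mul_assoc, ← pow_add]
    congr 3
    omega
  rw [sum_congr rfl hval, sum_const, nsmul_eq_mul]
  have hcard : fib.card ≤ h.choose j * (t - h).choose (a - j) := by
    have e : (S \ H).card = t - h := by
      have := card_sdiff_add_card_inter S H
      omega
    rw [← e, hh, ← card_powersetCard, ← card_powersetCard, ← card_product]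
    refine card_le_card_of_injOn (fun B => (B ∩ H, B \ H)) ?_ ?_
    · intro B hB
      simp only [fib, mem_coe, mem_filter, mem_powersetCard] at hB
      simp only [mem_coe, mem_product, mem_powersetCard]
      refine ⟨⟨inter_subset_inter hB.1.1 subset_rfl, hB.2⟩,
        sdiff_subset_sdiff hB.1.1 subset_rfl, ?_⟩
      have := card_sdiff_add_card_inter B H
      omega
    · intro B _ B' _ hBB
      simp only [Prod.mk.injEq] at hBB
      rw [← sdiff_union_inter B H, ← sdiff_union_inter B' H, hBB.1, hBB.2]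
  have hc : fib.card * t.choose j ≤ a.choose j * h.choose j * t.choose a := by
    calc fib.card * t.choose j ≤ h.choose j * (t - h).choose (a - j) * t.choose j :=
          Nat.mul_le_mul_right _ hcard
      _ ≤ h.choose j * (t - j).choose (a - j) * t.choose j := by
          by_cases hjh : j ≤ h
          · exact Nat.mul_le_mul_right _
              (Nat.mul_le_mul_left _ (Nat.choose_le_choose _ (by omega)))
          · simp [Nat.choose_eq_zero_of_lt (not_le.mp hjh)]
      _ = _ := by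
          rw [mul_assoc, mul_comm ((t - j).choose (a - j)), ← Nat.choose_mul hja]
          ring
  have hca : (0:ℝ) < (t.choose a : ℝ) := by exact_mod_cast Nat.choose_pos ha
  have hcj : (0:ℝ) < (t.choose j : ℝ) := by exact_mod_cast Nat.choose_pos (hja.trans ha)
  have hc' : (fib.card : ℝ) * (t.choose j : ℝ)
      ≤ (a.choose j : ℝ) * (h.choose j : ℝ) * (t.choose a : ℝ) := by exact_mod_cast hc
  have hW : 0 ≤ u S * p ^ (t - j) := mul_nonneg (hu S) (pow_nonneg hp _)
  calc (fib.card : ℝ) * (u S * p ^ (t - j) / (t.choose a : ℝ))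
      = ((fib.card : ℝ) * (t.choose j : ℝ)) * (u S * p ^ (t - j))
          / ((t.choose a : ℝ) * (t.choose j : ℝ)) := by field_simp
    _ ≤ ((a.choose j : ℝ) * (h.choose j : ℝ) * (t.choose a : ℝ)) * (u S * p ^ (t - j))
          / ((t.choose a : ℝ) * (t.choose j : ℝ)) := by gcongr
    _ = _ := by field_simp

end Proj

lemma pos_level {H : Finset X} {g : Finset X → ℝ} (h0 : g ∅ ≤ 1 / 2)
    (h1 : 1 ≤ ∑ S ∈ H.powerset, g S) :
    ∃ t, 1 ≤ t ∧ (1/2:ℝ) ^ (t + 1) ≤ ∑ S ∈ H.powersetCard t, g S := by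
  by_contra hne
  push Not at hne
  rw [sum_powerset, sum_range_succ'] at h1
  simp only [powersetCard_zero, sum_singleton] at h1
  rcases Nat.eq_zero_or_pos H.card with h | h
  · rw [h] at h1; simp at h1; linarith
  · have hlt : ∑ k ∈ range H.card, ∑ S ∈ H.powersetCard (k + 1), g S
        < ∑ k ∈ range H.card, (1/2:ℝ) ^ (k + 1 + 1) :=
      sum_lt_sum_of_nonempty ⟨0, mem_range.mpr h⟩ fun k _ => hne (k + 1) (by omega)
    have hle : ∑ k ∈ range H.card, (1/2:ℝ) ^ (k + 1 + 1) ≤ 1 / 2 := by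
      simp only [pow_succ, mul_assoc, ← sum_mul]
      linarith [sum_geometric_two_le H.card]
    linarith

/-- Rescaled level weight. -/
noncomputable def lvl (g : Finset X → ℝ) (t : ℕ) (S : Finset X) : ℝ :=
  if S.card = t then g S * 2 ^ (t + 1) * ((2:ℝ) ^ 1600) ^ t else 0

omit [Fintype X] [DecidableEq X] in
lemma lvl_nonneg {g : Finset X → ℝ} (hg : ∀ S, 0 ≤ g S) (t : ℕ) (S : Finset X) :
    0 ≤ lvl g t S := by
  unfold lvl; split_ifs
  · exact mul_nonneg (mul_nonneg (hg S) (by positivity)) (by positivity)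
  · exact le_rfl

omit [Fintype X] [DecidableEq X] in
lemma lvl_supp {g : Finset X → ℝ} (t : ℕ) (S : Finset X) (h : lvl g t S ≠ 0) : S.card = t := by
  by_contra hc
  exact h (by simp [lvl, hc])

lemma lvl_cost {g : Finset X → ℝ} (hg : ∀ S, 0 ≤ g S) {p : ℝ} (hp : 0 ≤ p)
    (hcost : ∑ S : Finset X, g S * p ^ S.card ≤ 1 / 2) (t : ℕ) :
    ∑ S : Finset X, lvl g t S * (p / (4 * 2 ^ 1600)) ^ t ≤ 1 := by
  have hpt : ∀ S : Finset X,
      lvl g t S * (p / (4 * 2 ^ 1600)) ^ t ≤ 2 * (g S * p ^ S.card) := by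
    intro S
    unfold lvl
    split_ifs with h
    · rw [h, div_pow, mul_pow]
      generalize hL : ((2:ℝ) ^ 1600) = L
      have hLp : L ^ t ≠ 0 := by rw [← hL]; positivity
      have h4 : (4:ℝ) ^ t = 2 ^ t * 2 ^ t := by rw [← mul_pow]; norm_num
      calc g S * 2 ^ (t + 1) * L ^ t * (p ^ t / (4 ^ t * L ^ t))
          = 2 * (g S * p ^ t) / 2 ^ t := by rw [h4, pow_succ]; field_simp
        _ ≤ _ := div_le_self (mul_nonneg zero_le_two (mul_nonneg (hg S) (pow_nonneg hp t)))
            (one_le_pow₀ one_le_two)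
    · rw [zero_mul]
      exact mul_nonneg zero_le_two (mul_nonneg (hg S) (pow_nonneg hp _))
  refine (sum_le_sum fun S _ => hpt S).trans ?_
  rw [← mul_sum]
  linarith

/-- The main implication. -/
theorem frac_to_small (F : Finset (Finset X)) (hne : ∅ ∉ F) {p : ℝ} (hp0 : 0 ≤ p) (hp1 : p ≤ 1)
    (h : FracSmall F p) : Small F (p / 2 ^ 1603) := by
  rcases hp0.eq_or_lt with hp | hp
  · refine ⟨F, fun H hH => ⟨H, hH, subset_rfl⟩, ?_⟩
    rw [← hp]
    refine le_of_eq_of_le (sum_eq_zero fun S hS => ?_) (by norm_num)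
    rw [zero_div, zero_pow]
    exact fun hc => hne (card_eq_zero.mp hc ▸ hS)
  obtain ⟨g, hg, hcov, hcost⟩ := h
  have hg0 : ∀ S, 0 ≤ g S := fun S => (hg S).1
  have hge : g ∅ ≤ 1 / 2 := by
    refine le_trans (le_of_eq ?_) ((single_le_sum (f := fun S => g S * p ^ S.card)
      (fun S _ => mul_nonneg (hg0 S) (pow_nonneg hp0 _)) (mem_univ ∅)).trans hcost)
    simp
  set p' := p / (4 * 2 ^ 1600) with hp'
  have hL : (1:ℝ) ≤ 4 * 2 ^ 1600 :=
    one_le_mul_of_one_le_of_one_le (by norm_num) (one_le_pow₀ one_le_two)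
  have hp'0 : 0 < p' := div_pos hp (lt_of_lt_of_le one_pos hL)
  have hp'1 : p' ≤ 1 := (div_le_self hp0 hL).trans hp1
  -- one instance for each level pair
  have hex : ∀ κ : ℕ × ℕ × ℕ, ∃ G : Finset (Finset X),
      (1 ≤ κ.2.1 ∧ κ.2.1 ≤ κ.1 ∧ 100 * (κ.1 + κ.2.1) ≤ κ.2.2) →
      (∀ H, (bb κ.2.2 : ℝ) ≤ theta (lvl g κ.1) p' κ.1 κ.2.1 H →
          ∑ B : Finset X, proj (lvl g κ.1) p' κ.1 κ.2.1 B * p' ^ (B \ H).card
            ≤ capB κ.2.1 κ.2.2 → ∃ S ∈ G, S ⊆ H) ∧
        ∑ S ∈ G, (p' / 2) ^ S.card ≤ 6 * (1/2) ^ κ.2.2 := by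
    rintro ⟨t, a, i⟩
    by_cases hk : 1 ≤ a ∧ a ≤ t ∧ 100 * (t + a) ≤ i
    · let I : Inst X :=
        { v := proj (lvl g t) p' t a
          p := p'
          a := a
          hv := proj_nonneg (lvl_nonneg hg0 t) hp'0.le a
          hsupp := proj_card a
          hp := hp'0
          hp1 := hp'1
          ha := hk.1
          hcost := by
            rw [proj_cost (lvl_supp t) hk.2.1]
            exact lvl_cost hg0 hp0 hcost t }
      obtain ⟨G, h1, h2⟩ := I.core_cover (i := i) (by omega) (show 99 * a ≤ i by omega)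
      exact ⟨G, fun _ => ⟨h1, h2⟩⟩
    · exact ⟨∅, fun h => absurd h hk⟩
  choose Gs hGs using hex
  have hclass : ∀ H ∈ F, ∃ κ : ℕ × ℕ × ℕ, (1 ≤ κ.2.1 ∧ κ.2.1 ≤ κ.1 ∧
      100 * (κ.1 + κ.2.1) ≤ κ.2.2) ∧ ∃ S ∈ Gs κ, S ⊆ H := by
    intro H hH
    obtain ⟨t, ht1, ht⟩ := pos_level hge (hcov H hH)
    set u := lvl g t with hu
    set L : ℝ := (2:ℝ) ^ 800 with hLdef
    have hL0 : 0 < L := pow_pos two_pos _
    have hL1 : 1 ≤ L := one_le_pow₀ one_le_two
    set θ := fun j => theta u p' t j H with hθ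
    have htop : L ^ (2 * t) ≤ θ t := by
      simp only [hθ]
      rw [theta_top H (lvl_supp t)]
      have e : ∑ S ∈ H.powerset, u S
          = (∑ S ∈ H.powersetCard t, g S) * 2 ^ (t + 1) * ((2:ℝ) ^ 1600) ^ t := by
        rw [powersetCard_eq_filter, sum_mul, sum_mul, sum_filter]
        rfl
      rw [e, pow_mul, show L ^ 2 = (2:ℝ) ^ 1600 by rw [hLdef, ← pow_mul]]
      refine le_mul_of_one_le_left (pow_nonneg (pow_nonneg zero_le_two _) _) ?_
      calc (1:ℝ) = (1/2) ^ (t + 1) * 2 ^ (t + 1) := by rw [← mul_pow]; norm_num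
        _ ≤ _ := mul_le_mul_of_nonneg_right ht (by positivity)
    obtain ⟨a, ha, hmax⟩ := exists_max_image (range (t + 1)) (fun j => θ j / L ^ j)
      ⟨0, by simp⟩
    have hat : a ≤ t := Nat.lt_succ_iff.mp (mem_range.mp ha)
    have hbig : L ^ (t + a) ≤ θ a := by
      have h1 : L ^ t ≤ θ a / L ^ a := by
        refine le_trans ?_ (hmax t (by simp))
        rw [le_div_iff₀ (pow_pos hL0 _), ← pow_add, ← two_mul]
        exact htop
      rw [pow_add]
      exact (le_div_iff₀ (pow_pos hL0 _)).mp h1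
    have ha1 : 1 ≤ a := by
      by_contra hc
      obtain rfl : a = 0 := by omega
      have h0 : θ 0 ≤ 1 := theta_zero_le H (lvl_cost hg0 hp0 hcost t)
      have : 1 < L ^ (t + 0) := one_lt_pow₀ (one_lt_pow₀ one_lt_two (by norm_num)) (by omega)
      linarith
    have hload : ∑ B : Finset X, proj u p' t a B * p' ^ (B \ H).card ≤ 2 ^ a * θ a := by
      refine (proj_load_le (lvl_nonneg hg0 t) hp'0.le (lvl_supp t) hat H).trans ?_
      have hθa : 0 ≤ θ a := le_trans (pow_nonneg hL0.le _) hbig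
      calc ∑ j ∈ range (a + 1), (a.choose j : ℝ) * θ j
          ≤ ∑ j ∈ range (a + 1), (a.choose j : ℝ) * θ a := by
            refine sum_le_sum fun j hj => mul_le_mul_of_nonneg_left ?_ (Nat.cast_nonneg _)
            have hja : j ≤ a := Nat.lt_succ_iff.mp (mem_range.mp hj)
            have h2 := hmax j (mem_range.mpr (by omega))
            rw [div_le_iff₀ (pow_pos hL0 _)] at h2
            refine h2.trans ?_
            rw [div_mul_eq_mul_div, div_le_iff₀ (pow_pos hL0 _)]
            exact mul_le_mul_of_nonneg_left (pow_le_pow_right₀ hL1 hja) hθa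
        _ = 2 ^ a * θ a := by
            rw [← sum_mul, ← Nat.cast_sum, Nat.sum_range_choose]; norm_num
    have hθ1 : 1 ≤ θ a := (one_le_pow₀ hL1).trans hbig
    set n := ⌊θ a⌋₊ with hn
    have hn1 : 1 ≤ n := Nat.floor_pos.mpr hθ1
    set l := Nat.log 2 n with hl
    have hlo : (2:ℝ) ^ l ≤ θ a := by
      refine le_trans ?_ (Nat.floor_le (by linarith))
      exact_mod_cast Nat.pow_log_le_self 2 (by omega : n ≠ 0)
    have hhi : θ a < (2:ℝ) ^ (l + 1) := by
      refine (Nat.lt_floor_add_one _).trans_le ?_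
      have := Nat.lt_pow_succ_log_self one_lt_two n
      exact_mod_cast this
    set i := l / 8 with hi
    have hti : 100 * (t + a) ≤ i := by
      have h3 : L ^ (t + a) < (2:ℝ) ^ (l + 1) := hbig.trans_lt hhi
      rw [hLdef, ← pow_mul] at h3
      have := (pow_lt_pow_iff_right₀ (one_lt_two (α := ℝ))).mp h3
      omega
    refine ⟨(t, a, i), ⟨ha1, hat, hti⟩, (hGs (t, a, i) ⟨ha1, hat, hti⟩).1 H ?_ ?_⟩
    · refine le_trans ?_ hlo
      simp only [bb]
      push_cast
      exact pow_le_pow_right₀ one_le_two (by omega)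
    · refine hload.trans ?_
      simp only [capB, bb]
      push_cast
      rw [← pow_add, pow_add]
      calc (2:ℝ) ^ a * θ a ≤ 2 ^ a * 2 ^ (l + 1) :=
            mul_le_mul_of_nonneg_left hhi.le (by positivity)
        _ ≤ _ := by
            simp only [← pow_add]
            exact pow_le_pow_right₀ one_le_two (by omega)
  choose! κ hκ hκS using hclass
  set K := F.image κ with hK
  refine ⟨K.biUnion Gs, ?_, ?_⟩
  · intro H hH
    obtain ⟨S, hS, hSH⟩ := hκS H hH
    exact ⟨S, mem_biUnion.mpr ⟨κ H, mem_image_of_mem κ hH, hS⟩, hSH⟩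
  have hq : p / 2 ^ 1603 = p' / 2 := by
    rw [hp', div_div, show (1603 : ℕ) = 1600 + 3 from rfl, pow_add]
    generalize (2:ℝ) ^ 1600 = L
    ring
  rw [hq]
  set c : ℕ × ℕ × ℕ → ℝ := fun k => (1/2) ^ 10 * ((1/2) ^ k.1 * ((1/2) ^ k.2.1 * (3/4) ^ k.2.2))
  have hc0 : ∀ k, 0 ≤ c k := fun k => by positivity
  have hone : ∀ k ∈ K, ∑ S ∈ Gs k, (p' / 2) ^ S.card ≤ c k := by
    intro k hk
    obtain ⟨H, hH, rfl⟩ := mem_image.mp hk
    obtain ⟨ha1, hat, hti⟩ := hκ H hH
    refine (hGs (κ H) ⟨ha1, hat, hti⟩).2.trans ?_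
    simp only [c]
    generalize (κ H).1 = t at hat hti ⊢
    generalize (κ H).2.1 = a at ha1 hat hti ⊢
    generalize hI : (κ H).2.2 = i at hti ⊢
    have h1 : ((2:ℝ)/3) ^ i ≤ (1/2) ^ (50 * (t + a)) := by
      refine (pow_le_pow_of_le_one (by norm_num) (by norm_num) hti).trans ?_
      rw [show 100 * (t + a) = 2 * (50 * (t + a)) by ring, pow_mul]
      exact pow_le_pow_left₀ (by norm_num) (by norm_num) _
    have h2 : ((1:ℝ)/2) ^ (50 * (t + a)) ≤ (1/2) ^ (13 + (t + a)) :=
      pow_le_pow_of_le_one (by norm_num) (by norm_num) (by omega)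
    have h3 : ((1:ℝ)/2) ^ i = (2/3) ^ i * (3/4) ^ i := by rw [← mul_pow]; norm_num
    have h4 := mul_le_mul_of_nonneg_right (h1.trans h2) (by positivity : (0:ℝ) ≤ (3/4) ^ i)
    rw [h3, pow_add, pow_add] at *
    nlinarith [show (0:ℝ) ≤ (1/2) ^ t * (1/2) ^ a * (3/4) ^ i by positivity]
  refine (sum_biUnion_le_sum K Gs _ fun S => pow_nonneg (by linarith) _).trans
    ((sum_le_sum hone).trans ?_)
  set M := (K.sup fun k => max k.1 (max k.2.1 k.2.2)) + 1
  have hKsub : K ⊆ range M ×ˢ (range M ×ˢ range M) := by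
    intro k hk
    have := le_sup (f := fun k : ℕ × ℕ × ℕ => max k.1 (max k.2.1 k.2.2)) hk
    simp only [mem_product, mem_range]
    simp only [M]
    omega
  refine (sum_le_sum_of_subset_of_nonneg hKsub fun k _ _ => hc0 k).trans ?_
  simp only [c, sum_product, ← mul_sum, ← sum_mul]
  have h1 := sum_geometric_two_le M
  have h0 : 0 ≤ ∑ k ∈ range M, ((1:ℝ)/2) ^ k := sum_nonneg fun k _ => by positivity
  have h2 : ∑ k ∈ range M, ((3:ℝ)/4) ^ k ≤ 4 := by
    rw [geom_sum_eq (by norm_num)]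
    have : (0:ℝ) ≤ (3/4) ^ M := by positivity
    rw [div_le_iff_of_neg (by norm_num)]
    linarith
  have h3 : 0 ≤ ∑ k ∈ range M, ((3:ℝ)/4) ^ k := sum_nonneg fun k _ => by positivity
  have h4 := mul_le_mul h1 (mul_le_mul h1 h2 h3 zero_le_two) (mul_nonneg h0 h3) zero_le_two
  linarith

end Vale.Agent.P034
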