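import Mathlib

namespace Vale.Agent.P034

open Finset

variable {X : Type} [Fintype X] [DecidableEq X]

/-- A uniform weighted family at scale `p`. -/
structure Inst (X : Type) [Fintype X] [DecidableEq X] where
  v : Finset X → ℝ
  p : ℝ
  a : ℕ
  hv : ∀ S, 0 ≤ v S
  hsupp : ∀ S, v S ≠ 0 → S.card = a
  hp : 0 < p
  hp1 : p ≤ 1
  ha : 1 ≤ a
  hcost : ∑ S : Finset X, v S * p ^ S.card ≤ 1

namespace Inst

variable (I : Inst X)

/-- The smoothed load of a set. -/
noncomputable def Phi (A : Finset X) : ℝ := ∑ S : Finset X, I.v S * I.p ^ (S \ A).card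

/-- The link weight of a set. -/
noncomputable def link (B : Finset X) : ℝ :=
  ∑ S ∈ univ.filter (fun S : Finset X => B ⊆ S), I.v S * I.p ^ (S \ B).card

/-- The weight below a set. -/
noncomputable def below (H : Finset X) : ℝ := ∑ S ∈ H.powerset, I.v S

/-- Sets of link weight at least `α`. -/
noncomputable def heavy (α : ℝ) : Finset (Finset X) := univ.filter fun B => α ≤ I.link B

/-- Union of the heavy subsets of a set. -/
noncomputable def hull (α : ℝ) (S : Finset X) : Finset X :=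
  (S.powerset.filter fun B => α ≤ I.link B).sup id

/-- Unions of at most `m` heavy sets with bounded load. -/
noncomputable def thin (α cap : ℝ) : ℕ → Finset (Finset X)
  | 0 => {∅}
  | m + 1 => thin α cap m ∪
      (((thin α cap m).filter fun A => I.Phi A ≤ cap) ×ˢ I.heavy α).image fun AB => AB.1 ∪ AB.2

lemma p_nonneg : 0 ≤ I.p := I.hp.le

lemma ppow_anti {m n : ℕ} (h : m ≤ n) : I.p ^ n ≤ I.p ^ m :=
  pow_le_pow_of_le_one I.p_nonneg I.hp1 h

lemma term_nonneg (S : Finset X) (n : ℕ) : 0 ≤ I.v S * I.p ^ n :=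
  mul_nonneg (I.hv S) (pow_nonneg I.p_nonneg n)

lemma Phi_nonneg (A : Finset X) : 0 ≤ I.Phi A := sum_nonneg fun S _ => I.term_nonneg S _

lemma Phi_mono {A B : Finset X} (h : A ⊆ B) : I.Phi A ≤ I.Phi B :=
  sum_le_sum fun S _ => mul_le_mul_of_nonneg_left
    (I.ppow_anti (card_le_card (sdiff_subset_sdiff subset_rfl h))) (I.hv S)

lemma Phi_empty : I.Phi ∅ ≤ 1 := by simpa [Phi] using I.hcost

lemma link_nonneg (B : Finset X) : 0 ≤ I.link B := sum_nonneg fun S _ => I.term_nonneg S _

lemma link_self (S : Finset X) : I.v S ≤ I.link S := by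
  have : I.v S * I.p ^ (S \ S).card ≤ I.link S :=
    single_le_sum (f := fun T => I.v T * I.p ^ (T \ S).card)
      (fun T _ => I.term_nonneg T _) (by simp)
  simpa using this

lemma link_eq_zero {B : Finset X} (h : I.a < B.card) : I.link B = 0 := by
  refine sum_eq_zero fun S hS => ?_
  by_contra hne
  have : I.v S ≠ 0 := left_ne_zero_of_mul hne
  have := I.hsupp S this
  have := card_le_card (mem_filter.mp hS).2
  omega

lemma heavy_card {α : ℝ} (hα : 0 < α) {B : Finset X} (h : α ≤ I.link B) : B.card ≤ I.a := by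
  by_contra hc
  rw [I.link_eq_zero (not_le.mp hc)] at h
  linarith

lemma sum_link_mul (f : Finset X → ℝ) :
    ∑ B : Finset X, I.link B * f B
      = ∑ S : Finset X, ∑ B ∈ S.powerset, I.v S * I.p ^ (S \ B).card * f B := by
  simp only [link, sum_mul]
  rw [sum_comm' (t' := univ) (s' := fun S => S.powerset)]
  intro B S; simp

lemma powerset_sum_le (S : Finset X) (c : ℝ) (f : Finset X → ℝ)
    (h : I.v S ≠ 0 → ∀ B, B ⊆ S → f B ≤ c) :
    ∑ B ∈ S.powerset, I.v S * f B ≤ 2 ^ I.a * (I.v S * c) := by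
  by_cases hv : I.v S = 0
  · simp [hv]
  · calc ∑ B ∈ S.powerset, I.v S * f B ≤ ∑ B ∈ S.powerset, I.v S * c :=
          sum_le_sum fun B hB => mul_le_mul_of_nonneg_left (h hv B (mem_powerset.mp hB)) (I.hv S)
      _ = 2 ^ I.a * (I.v S * c) := by
          rw [sum_const, card_powerset, I.hsupp S hv, nsmul_eq_mul]; push_cast; ring

lemma sum_link_sdiff_le (A : Finset X) :
    ∑ B : Finset X, I.link B * I.p ^ (B \ A).card ≤ 2 ^ I.a * I.Phi A := by
  rw [I.sum_link_mul, Phi, mul_sum]
  refine sum_le_sum fun S _ => ?_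
  simp only [mul_assoc]
  refine I.powerset_sum_le S _ _ fun _ B _ => ?_
  rw [← pow_add]
  refine I.ppow_anti (le_trans (card_le_card ?_) (card_union_le _ _))
  intro x; simp only [mem_sdiff, mem_union]; tauto

lemma sum_link_subset_le (H : Finset X) :
    ∑ B ∈ H.powerset, I.link B ≤ 2 ^ I.a * I.Phi H := by
  calc ∑ B ∈ H.powerset, I.link B = ∑ B ∈ H.powerset, I.link B * I.p ^ (B \ H).card := by
        refine sum_congr rfl fun B hB => ?_
        rw [sdiff_eq_empty_iff_subset.mpr (mem_powerset.mp hB), card_empty, pow_zero, mul_one]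
    _ ≤ ∑ B : Finset X, I.link B * I.p ^ (B \ H).card :=
        sum_le_sum_of_subset_of_nonneg (subset_univ _)
          (fun B _ _ => mul_nonneg (I.link_nonneg B) (pow_nonneg I.p_nonneg _))
    _ ≤ _ := I.sum_link_sdiff_le H

lemma sum_link_cost_le : ∑ B : Finset X, I.link B * (I.p / 2) ^ B.card ≤ 2 ^ I.a := by
  calc ∑ B : Finset X, I.link B * (I.p / 2) ^ B.card
      ≤ ∑ B : Finset X, I.link B * I.p ^ (B \ ∅).card := by
        refine sum_le_sum fun B _ => mul_le_mul_of_nonneg_left ?_ (I.link_nonneg B)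
        simp only [sdiff_empty]
        exact pow_le_pow_left₀ (by linarith [I.hp]) (by linarith [I.hp]) _
    _ ≤ 2 ^ I.a * I.Phi ∅ := I.sum_link_sdiff_le ∅
    _ ≤ _ := mul_le_of_le_one_right (by positivity) I.Phi_empty

lemma Phi_le_sum_link (C : Finset X) : I.Phi C ≤ ∑ U ∈ C.powerset, I.link U := by
  unfold Phi link
  rw [sum_comm' (t' := univ) (s' := fun S => (S ∩ C).powerset)
    (by intro U S; simp only [mem_powerset, mem_filter, mem_univ, true_and, subset_inter_iff]; tauto)]
  refine sum_le_sum fun S _ => ?_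
  have hmem : S ∩ C ∈ (S ∩ C).powerset := mem_powerset_self _
  have := single_le_sum (f := fun U => I.v S * I.p ^ (S \ U).card)
    (fun U _ => I.term_nonneg S _) hmem
  simpa using this

lemma hull_subset (α : ℝ) (S : Finset X) : I.hull α S ⊆ S := by
  intro x hx
  simp only [hull, mem_sup, mem_filter, mem_powerset, id] at hx
  obtain ⟨B, ⟨hB, -⟩, hxB⟩ := hx
  exact hB hxB

lemma mem_hull {α : ℝ} {S : Finset X} {x : X} :
    x ∈ I.hull α S ↔ ∃ B, B ⊆ S ∧ α ≤ I.link B ∧ x ∈ B := by
  simp [hull, mem_sup, and_assoc]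

lemma subset_hull {α : ℝ} {S B : Finset X} (h1 : B ⊆ S) (h2 : α ≤ I.link B) : B ⊆ I.hull α S :=
  fun _ hx => I.mem_hull.mpr ⟨B, h1, h2, hx⟩

lemma hull_anti {α α' : ℝ} (h : α' ≤ α) (S : Finset X) : I.hull α S ⊆ I.hull α' S := by
  intro x hx
  obtain ⟨B, h1, h2, h3⟩ := I.mem_hull.mp hx
  exact I.mem_hull.mpr ⟨B, h1, h.trans h2, h3⟩

lemma hull_into {α : ℝ} {S H : Finset X} (h : I.hull α S ⊆ H) : I.hull α S ⊆ I.hull α H := by
  intro x hx
  obtain ⟨B, h1, h2, h3⟩ := I.mem_hull.mp hx
  exact I.mem_hull.mpr ⟨B, (I.subset_hull h1 h2).trans h, h2, h3⟩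

lemma card_heavy_below {α Y : ℝ} (hα : 0 < α) {H : Finset X}
    (hY : 2 ^ I.a * I.Phi H ≤ Y * α) :
    ((H.powerset.filter fun B => α ≤ I.link B).card : ℝ) ≤ Y := by
  set s := H.powerset.filter fun B => α ≤ I.link B
  have h1 : (s.card : ℝ) * α ≤ ∑ B ∈ s, I.link B := by
    have := card_nsmul_le_sum s I.link α (fun B hB => (mem_filter.mp hB).2)
    simpa [nsmul_eq_mul] using this
  have h2 : ∑ B ∈ s, I.link B ≤ ∑ B ∈ H.powerset, I.link B :=
    sum_le_sum_of_subset_of_nonneg (filter_subset _ _) (fun B _ _ => I.link_nonneg B)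
  have h3 := I.sum_link_subset_le H
  by_contra hc
  nlinarith [not_le.mp hc]

lemma thin_mem {α cap : ℝ} (m : ℕ) :
    ∀ s : Finset (Finset X), s.card ≤ m → (∀ B ∈ s, α ≤ I.link B) → I.Phi (s.sup id) ≤ cap →
      s.sup id ∈ I.thin α cap m := by
  induction m with
  | zero =>
    intro s hs _ _
    have : s = ∅ := by simpa using hs
    simp [this, thin]
  | succ m ih =>
    intro s hs hB hcap
    rcases s.eq_empty_or_nonempty with rfl | ⟨B, hBs⟩
    · simp only [thin, mem_union]; left; exact ih ∅ (by simp) (by simp) (by simpa using hcap)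
    · have hsub : (s.erase B).sup id ⊆ s.sup id := sup_mono (erase_subset _ _)
      have hA := ih (s.erase B) (by rw [card_erase_of_mem hBs]; omega)
        (fun C hC => hB C (mem_of_mem_erase hC)) ((I.Phi_mono hsub).trans hcap)
      simp only [thin, mem_union, mem_image, mem_product, mem_filter]
      right
      refine ⟨((s.erase B).sup id, B), ⟨⟨hA, (I.Phi_mono hsub).trans hcap⟩,
        by simp [heavy, hB B hBs]⟩, ?_⟩
      conv_rhs => rw [← insert_erase hBs, sup_insert, id, sup_eq_union, union_comm]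

lemma thin_sum {α cap Y : ℝ} (hα : 0 < α) (hY : 2 ^ I.a * cap ≤ Y * α) (hY0 : 0 ≤ Y) (m : ℕ) :
    ∑ T ∈ I.thin α cap m, (I.p / 2) ^ T.card ≤ (Y + 1) ^ m := by
  have hq : (0:ℝ) ≤ I.p / 2 := by linarith [I.hp]
  induction m with
  | zero => simp [thin]
  | succ m ih =>
    rw [thin]
    set T := I.thin α cap m
    set T' := ((T.filter fun A => I.Phi A ≤ cap) ×ˢ I.heavy α).image fun AB => AB.1 ∪ AB.2
    have h0 : ∑ U ∈ T ∪ T', (I.p / 2) ^ U.card
        ≤ ∑ U ∈ T, (I.p / 2) ^ U.card + ∑ U ∈ T', (I.p / 2) ^ U.card := by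
      rw [← sum_union_inter]
      linarith [sum_nonneg (s := T ∩ T') (f := fun U => (I.p / 2) ^ U.card)
        (fun U _ => pow_nonneg hq _)]
    have h1 : ∑ U ∈ T', (I.p / 2) ^ U.card ≤ Y * ∑ U ∈ T, (I.p / 2) ^ U.card := by
      refine (sum_image_le_of_nonneg (fun AB _ => pow_nonneg hq _)).trans ?_
      rw [sum_product, mul_sum]
      refine (sum_le_sum (g := fun A => Y * (I.p / 2) ^ A.card) ?_).trans
        (sum_le_sum_of_subset_of_nonneg (filter_subset _ _)
          (fun A _ _ => mul_nonneg hY0 (pow_nonneg hq _)))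
      intro A hA
      have hcap := (mem_filter.mp hA).2
      have e1 : ∀ B : Finset X, (I.p / 2) ^ (A ∪ B).card
          = (I.p / 2) ^ A.card * (I.p / 2) ^ (B \ A).card := by
        intro B
        rw [← pow_add, union_comm, ← card_sdiff_add_card, add_comm]
      simp only [e1, ← mul_sum]
      rw [mul_comm Y]
      refine mul_le_mul_of_nonneg_left ?_ (pow_nonneg hq _)
      have h2 : α * ∑ B ∈ I.heavy α, (I.p / 2) ^ (B \ A).card
          ≤ ∑ B : Finset X, I.link B * I.p ^ (B \ A).card := by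
        rw [mul_sum]
        refine (sum_le_sum fun B hB => ?_).trans
          (sum_le_sum_of_subset_of_nonneg (subset_univ _)
            (fun B _ _ => mul_nonneg (I.link_nonneg B) (pow_nonneg I.p_nonneg _)))
        exact mul_le_mul (mem_filter.mp hB).2 (pow_le_pow_left₀ hq (by linarith [I.hp]) _)
          (pow_nonneg hq _) (I.link_nonneg B)
      have h3 := I.sum_link_sdiff_le A
      have h4 : 2 ^ I.a * I.Phi A ≤ Y * α :=
        (mul_le_mul_of_nonneg_left hcap (by positivity)).trans hY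
      nlinarith
    rw [pow_succ]
    nlinarith

end Inst

end Vale.Agent.P034
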